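import Vale.Agent.P231.Fm.Form

/-!
# P231, forms layer: contraction with several vectors and evaluation of constant forms
-/

set_option linter.unusedSectionVars false

open Module
open scoped ContDiff

namespace Vale.Agent.P231.Fm

variable {E : Type*} [NormedAddCommGroup E] [NormedSpace ℝ E] [FiniteDimensional ℝ E]
variable {F : Type*} [NormedAddCommGroup F] [NormedSpace ℝ F] [FiniteDimensional ℝ F]

/-- the degree zero part -/
noncomputable def aug : Lam E →ₐ[ℝ] ℝ := Lam.lift 0 fun a => by simp

@[simp] theorem aug_dx (a : E →L[ℝ] ℝ) : aug (dx a) = 0 := by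
  rw [dx_eq, aug, Lam.lift_dxl]
  rfl

@[simp] theorem aug_dLin (T : E →L[ℝ] Lam E) : aug (dLin T) = 0 := by
  rw [dLin_apply, map_sum]
  exact Finset.sum_eq_zero fun i _ => by rw [map_mul, aug_dx, zero_mul]

@[simp] theorem aug_inv (w : Lam E) : aug (inv w) = aug w := by
  have h : (aug.comp inv : Lam E →ₐ[ℝ] ℝ) = aug := Lam.algHom_ext fun a => by
    simp [← dx_eq]
  exact DFunLike.congr_fun h w

@[simp] theorem aug_pull (L : E →L[ℝ] F) (w : Lam F) : aug (pull L w) = aug w := by
  have h : (aug.comp (pull L) : Lam F →ₐ[ℝ] ℝ) = aug := Lam.algHom_ext fun a => by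
    simp [← dx_eq]
  exact DFunLike.congr_fun h w

theorem iprod_add (u v : E) (w : Lam E) : iprod (u + v) w = iprod u w + iprod v w := by
  induction w using Lam.ind with
  | h1 r => simp [iprod_algebraMap]
  | h2 a => simp
  | h3 a b ha hb => simp only [iprod_mul, ha, hb]; noncomm_ring
  | h4 a b ha hb => simp only [map_add, ha, hb]; abel

theorem iprod_smul (c : ℝ) (v : E) (w : Lam E) : iprod (c • v) w = c • iprod v w := by
  induction w using Lam.ind with
  | h1 r => simp [iprod_algebraMap]
  | h2 a => simp [Algebra.smul_def]
  | h3 a b ha hb => simp only [iprod_mul, ha, hb, smul_add, smul_mul_assoc, mul_smul_comm]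
  | h4 a b ha hb => simp only [map_add, ha, hb, smul_add]

theorem iprod_self (v : E) (w : Lam E) : iprod v (iprod v w) = 0 := by
  induction w using Lam.ind with
  | h1 r => simp [iprod_algebraMap]
  | h2 a => simp [iprod_algebraMap]
  | h3 a b ha hb =>
    simp only [iprod_mul, map_add, ha, hb, inv_iprod, inv_inv]
    noncomm_ring
  | h4 a b ha hb => simp only [map_add, ha, hb, add_zero]

theorem iprod_anticomm (u v : E) (w : Lam E) : iprod u (iprod v w) = -iprod v (iprod u w) := by
  have h := iprod_self (u + v) w
  rw [iprod_add, iprod_add, map_add, map_add, iprod_self, iprod_self, zero_add, add_zero] at h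
  exact eq_neg_of_add_eq_zero_left h

/-- contraction with `v 0`, then `v 1`, ... -/
noncomputable def cont : ∀ {k : ℕ}, (Fin k → E) → Lam E →ₗ[ℝ] Lam E
  | 0, _ => LinearMap.id
  | _ + 1, v => cont (fun i => v i.succ) ∘ₗ iprod (v 0)

@[simp] theorem cont_zero (v : Fin 0 → E) (w : Lam E) : cont v w = w := rfl

theorem cont_succ {k : ℕ} (v : Fin (k + 1) → E) (w : Lam E) :
    cont v w = cont (fun i => v i.succ) (iprod (v 0) w) := rfl

theorem pull_cont (L : E →L[ℝ] F) {k : ℕ} (v : Fin k → E) (w : Lam F) :
    cont v (pull L w) = pull L (cont (fun i => L (v i)) w) := by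
  induction k generalizing w with
  | zero => rfl
  | succ k ih => rw [cont_succ, pull_iprod, ih, cont_succ]

/-- contraction as a continuous linear map -/
noncomputable def contL {k : ℕ} (v : Fin k → E) : Lam E →L[ℝ] Lam E :=
  LinearMap.toContinuousLinearMap (cont v)

@[simp] theorem contL_apply {k : ℕ} (v : Fin k → E) (w : Lam E) : contL v w = cont v w := rfl

/-- contraction vanishes if two of the vectors agree -/
theorem cont_eq_zero_aux {k : ℕ} (v : Fin k → E) (u : E) (w : Lam E) (h : ∃ i, v i = u) :
    cont v (iprod u w) = 0 := by
  induction k generalizing w with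
  | zero => obtain ⟨i, _⟩ := h; exact i.elim0
  | succ k ih =>
    rw [cont_succ]
    obtain ⟨i, hi⟩ := h
    refine Fin.cases (fun hi => ?_) (fun i hi => ?_) i hi
    · rw [hi, iprod_self, map_zero]
    · rw [iprod_anticomm, map_neg, ih _ _ ⟨i, hi⟩, neg_zero]

theorem cont_eq_zero {k : ℕ} (v : Fin k → E) (w : Lam E) {i j : Fin k} (hv : v i = v j)
    (hij : i ≠ j) : cont v w = 0 := by
  induction k generalizing w with
  | zero => exact i.elim0
  | succ k ih =>
    rw [cont_succ]
    induction i using Fin.cases with
    | zero =>
      induction j using Fin.cases with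
      | zero => exact absurd rfl hij
      | succ j => exact cont_eq_zero_aux _ _ _ ⟨j, hv.symm⟩
    | succ i =>
      induction j using Fin.cases with
      | zero => exact cont_eq_zero_aux _ _ _ ⟨i, hv⟩
      | succ j => exact ih _ _ hv fun h => hij (congrArg _ h)

theorem update_succ_zero {k : ℕ} (v : Fin (k + 1) → E) (z : E) :
    (fun j : Fin k => Function.update v 0 z j.succ) = fun j => v j.succ := by
  funext j
  rw [Function.update_of_ne (Fin.succ_ne_zero j)]

theorem update_succ_succ {k : ℕ} (v : Fin (k + 1) → E) (i : Fin k) (z : E) :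
    (fun j : Fin k => Function.update v i.succ z j.succ) =
      Function.update (fun j => v j.succ) i z := by
  funext j
  by_cases hj : j = i
  · subst hj; rw [Function.update_self, Function.update_self]
  · rw [Function.update_of_ne hj, Function.update_of_ne (fun h => hj (Fin.succ_injective _ h))]

theorem update_succ_at_zero {k : ℕ} (v : Fin (k + 1) → E) (i : Fin k) (z : E) :
    Function.update v i.succ z 0 = v 0 :=
  Function.update_of_ne (Fin.succ_ne_zero i).symm _ _

theorem cont_update_add {k : ℕ} (v : Fin k → E) (i : Fin k) (x y : E) (w : Lam E) :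
    cont (Function.update v i (x + y)) w =
      cont (Function.update v i x) w + cont (Function.update v i y) w := by
  induction k generalizing w with
  | zero => exact i.elim0
  | succ k ih =>
    rw [cont_succ, cont_succ, cont_succ]
    induction i using Fin.cases with
    | zero =>
      rw [update_succ_zero, update_succ_zero, update_succ_zero, Function.update_self,
        Function.update_self, Function.update_self, iprod_add, map_add]
    | succ i =>
      rw [update_succ_succ, update_succ_succ, update_succ_succ, update_succ_at_zero,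
        update_succ_at_zero, update_succ_at_zero]
      exact ih _ _ _

theorem cont_update_smul {k : ℕ} (v : Fin k → E) (i : Fin k) (c : ℝ) (x : E) (w : Lam E) :
    cont (Function.update v i (c • x)) w = c • cont (Function.update v i x) w := by
  induction k generalizing w with
  | zero => exact i.elim0
  | succ k ih =>
    rw [cont_succ, cont_succ]
    induction i using Fin.cases with
    | zero =>
      rw [update_succ_zero, update_succ_zero, Function.update_self, Function.update_self,
        iprod_smul, map_smul]
    | succ i =>
      rw [update_succ_succ, update_succ_succ, update_succ_at_zero, update_succ_at_zero]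
      exact ih _ _ _

/-- evaluation of the degree `k` part, as an alternating map -/
noncomputable def evalForm {k : ℕ} (w : Lam E) : E [⋀^Fin k]→ₗ[ℝ] ℝ where
  toFun v := aug (cont v w)
  map_update_add' := by
    intro inst v i x y
    obtain rfl : inst = instDecidableEqFin k := Subsingleton.elim _ _
    rw [cont_update_add, map_add]
  map_update_smul' := by
    intro inst v i c x
    obtain rfl : inst = instDecidableEqFin k := Subsingleton.elim _ _
    rw [cont_update_smul, map_smul]
  map_eq_zero_of_eq' := fun v i j h hij => by
    rw [cont_eq_zero v w h hij, map_zero]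

theorem evalForm_apply {k : ℕ} (w : Lam E) (v : Fin k → E) : evalForm w v = aug (cont v w) := rfl

theorem evalForm_pull (L : E →L[ℝ] F) {k : ℕ} (w : Lam F) (v : Fin k → E) :
    evalForm (pull L w) v = evalForm w fun i => L (v i) := by
  rw [evalForm_apply, pull_cont, aug_pull]
  rfl

/-- evaluation on a fixed family of vectors, linear in the form -/
noncomputable def evalL {k : ℕ} (v : Fin k → E) : Lam E →L[ℝ] ℝ :=
  LinearMap.toContinuousLinearMap (aug.toLinearMap ∘ₗ cont v)

theorem evalL_apply {k : ℕ} (v : Fin k → E) (w : Lam E) : evalL v w = evalForm w v := rfl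

/-- the determinant formula in top degree -/
theorem evalForm_pull_det {n : ℕ} (b : Basis (Fin n) ℝ E) (L : E →L[ℝ] E) (w : Lam E) :
    evalForm (pull L w) b = LinearMap.det (L : E →ₗ[ℝ] E) * evalForm w b := by
  rw [evalForm_pull]
  have h := (evalForm w : E [⋀^Fin n]→ₗ[ℝ] ℝ).eq_smul_basis_det b
  have h2 : evalForm w (fun i => L (b i)) = (evalForm w b • b.det) (fun i => L (b i)) := by
    rw [← h]
  rw [h2, AlternatingMap.smul_apply, smul_eq_mul, mul_comm]
  congr 1
  refine (Basis.det_comp_basis b b (L : E →ₗ[ℝ] E)).trans ?_
  rw [Basis.equiv_refl]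
  rfl

end Vale.Agent.P231.Fm
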