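import Mathlib

/-!
# P231, forms layer: integrals depending smoothly on a parameter
-/

set_option linter.unusedSectionVars false

open MeasureTheory Set Function
open scoped ContDiff Convolution

namespace Vale.Agent.P231.Fm

variable {P : Type*} [NormedAddCommGroup P] [NormedSpace ℝ P]
variable {F : Type*} [NormedAddCommGroup F] [NormedSpace ℝ F] [FiniteDimensional ℝ F]
  [MeasurableSpace F] [BorelSpace F]
variable {V : Type*} [NormedAddCommGroup V] [NormedSpace ℝ V] [CompleteSpace V]

/-- smoothness of weighted parametric integrals -/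
theorem contDiffOn_param (μ : Measure F) [μ.IsAddHaarMeasure] {n : ℕ∞} {U : Set P}
    (hU : IsOpen U) {K : Set F} (hK : IsCompact K) {f : F → ℝ} (hf : LocallyIntegrable f μ)
    {g : P × F → V} (hg : ContDiffOn ℝ n g (U ×ˢ univ)) (h0 : ∀ x ∈ U, ∀ y ∉ K, g (x, y) = 0) :
    ContDiffOn ℝ n (fun x => ∫ y, f y • g (x, y) ∂μ) U := by
  have hK' : IsCompact (-K) := hK.neg
  have h1 : ∀ p, ∀ x, p ∈ U → x ∉ -K → (fun (p : P) (y : F) => g (p, -y)) p x = 0 :=
    fun p x hp hx => h0 p hp (-x) fun h => hx (by simpa using h)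
  have h2 : ContDiffOn ℝ n ↿(fun (p : P) (y : F) => g (p, -y)) (U ×ˢ univ) := by
    refine hg.comp (t := U ×ˢ univ) ?_ ?_
    · exact (contDiff_fst.prodMk contDiff_snd.neg).contDiffOn
    · intro q hq
      exact ⟨hq.1, mem_univ _⟩
  have h3 := contDiffOn_convolution_right_with_param_comp (μ := μ)
    (ContinuousLinearMap.lsmul ℝ ℝ : ℝ →L[ℝ] V →L[ℝ] V) (s := U) (v := fun _ => (0 : F))
    contDiffOn_const hU hK' h1 hf h2
  refine h3.congr fun x hx => ?_
  rw [convolution_def]
  refine integral_congr_ae (Filter.Eventually.of_forall fun y => ?_)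
  simp

/-- continuity of the sections -/
theorem continuousOn_section {n : ℕ∞} {U : Set P} {g : P × F → V}
    (hg : ContDiffOn ℝ n g (U ×ˢ univ)) {x : P} (hx : x ∈ U) : Continuous fun y => g (x, y) := by
  have h : ContinuousOn g (U ×ˢ univ) := hg.continuousOn
  exact h.comp_continuous (Continuous.prodMk_right x) fun y => ⟨hx, mem_univ _⟩

theorem hasCompactSupport_section {U : Set P} {K : Set F} (hK : IsCompact K) {g : P × F → V}
    (h0 : ∀ x ∈ U, ∀ y ∉ K, g (x, y) = 0) {x : P} (hx : x ∈ U) :
    HasCompactSupport fun y => g (x, y) :=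
  HasCompactSupport.intro hK fun y hy => h0 x hx y hy

/-- derivative of weighted parametric integrals -/
theorem hasFDerivAt_param [FiniteDimensional ℝ P] (μ : Measure F) [μ.IsAddHaarMeasure]
    {U : Set P} (hU : IsOpen U) {K : Set F} (hK : IsCompact K) {f : F → ℝ}
    (hf : LocallyIntegrable f μ)
    {g : P × F → V} (hg : ContDiffOn ℝ 1 g (U ×ˢ univ)) (h0 : ∀ x ∈ U, ∀ y ∉ K, g (x, y) = 0)
    {x : P} (hx : x ∈ U) :
    HasFDerivAt (fun x => ∫ y, f y • g (x, y) ∂μ)
      (∫ y, f y • (fderiv ℝ g (x, y) ∘L ContinuousLinearMap.inl ℝ P F) ∂μ) x := by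
  have hopen : IsOpen (U ×ˢ (univ : Set F)) := hU.prod isOpen_univ
  have hdiff : ∀ z ∈ U, ∀ y, DifferentiableAt ℝ g (z, y) := fun z hz y =>
    (hg.differentiableOn (by norm_num)).differentiableAt (hopen.mem_nhds ⟨hz, mem_univ _⟩)
  have hG : ContinuousOn (fderiv ℝ g) (U ×ˢ univ) :=
    hg.continuousOn_fderiv_of_isOpen hopen (by norm_num)
  have hpart : ∀ z ∈ U, ∀ y, HasFDerivAt (fun z => g (z, y))
      (fderiv ℝ g (z, y) ∘L ContinuousLinearMap.inl ℝ P F) z := fun z hz y =>
    (hdiff z hz y).hasFDerivAt.comp z (hasFDerivAt_prodMk_left z y)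
  have hzero : ∀ z ∈ U, ∀ y ∉ K, fderiv ℝ g (z, y) ∘L ContinuousLinearMap.inl ℝ P F = 0 := by
    intro z hz y hy
    have h1 : (fun z => g (z, y)) =ᶠ[nhds z] fun _ => (0 : V) := by
      filter_upwards [hU.mem_nhds hz] with w hw using h0 w hw y hy
    have h2 := (hpart z hz y).congr_of_eventuallyEq h1.symm
    exact h2.unique (hasFDerivAt_const 0 z)
  obtain ⟨r, hr, hrU⟩ := Metric.nhds_basis_closedBall.mem_iff.1 (hU.mem_nhds hx)
  have hcomp : IsCompact (Metric.closedBall x r ×ˢ K) := (isCompact_closedBall x r).prod hK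
  have hcont : ContinuousOn (fun p => fderiv ℝ g p ∘L ContinuousLinearMap.inl ℝ P F)
      (Metric.closedBall x r ×ˢ K) := by
    have : ContinuousOn (fderiv ℝ g) (Metric.closedBall x r ×ˢ K) :=
      hG.mono (prod_mono hrU (subset_univ _))
    exact this.clm_comp continuousOn_const
  obtain ⟨C, hC⟩ := hcomp.exists_bound_of_continuousOn hcont
  have hC0 : 0 ≤ max C 0 := le_max_right _ _
  have hsec : ∀ z ∈ U, Continuous fun y => g (z, y) := fun z hz => continuousOn_section hg hz
  have hsec' : ∀ z ∈ U, Continuous fun y =>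
      fderiv ℝ g (z, y) ∘L ContinuousLinearMap.inl ℝ P F := fun z hz =>
    (hG.comp_continuous (Continuous.prodMk_right z) fun y => ⟨hz, mem_univ _⟩).clm_comp
      continuous_const
  have hcs' : HasCompactSupport fun y => fderiv ℝ g (x, y) ∘L ContinuousLinearMap.inl ℝ P F :=
    HasCompactSupport.intro hK fun y hy => hzero x hx y hy
  refine hasFDerivAt_integral_of_dominated_of_fderiv_le (s := Metric.closedBall x r)
    (bound := fun y => ‖f y‖ * (K.indicator (fun _ => max C 0) y))
    (F' := fun z y => f y • (fderiv ℝ g (z, y) ∘L ContinuousLinearMap.inl ℝ P F))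
    (Metric.closedBall_mem_nhds x hr) ?_ ?_ ?_ ?_ ?_ ?_
  · filter_upwards [hU.mem_nhds hx] with z hz
    exact hf.aestronglyMeasurable.smul (hsec z hz).aestronglyMeasurable
  · exact hf.integrable_smul_right_of_hasCompactSupport (hsec x hx)
      (hasCompactSupport_section hK h0 hx)
  · exact hf.aestronglyMeasurable.smul (hsec' x hx).aestronglyMeasurable
  · refine Filter.Eventually.of_forall fun y z hz => ?_
    rw [norm_smul]
    refine mul_le_mul_of_nonneg_left ?_ (norm_nonneg _)
    by_cases hy : y ∈ K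
    · rw [indicator_of_mem hy]
      exact (hC (z, y) ⟨hz, hy⟩).trans (le_max_left _ _)
    · rw [indicator_of_notMem hy, hzero z (hrU hz) y hy, norm_zero]
  · have h1 : IntegrableOn f K μ := hf.integrableOn_isCompact hK
    have h2 : Integrable (fun y => K.indicator (fun y => ‖f y‖ * max C 0) y) μ :=
      (integrable_indicator_iff hK.measurableSet).2 (h1.norm.mul_const _)
    refine h2.congr (Filter.Eventually.of_forall fun y => ?_)
    by_cases hy : y ∈ K
    · simp [hy]
    · simp [hy]
  · refine Filter.Eventually.of_forall fun y z hz => ?_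
    exact (hpart z (hrU hz) y).const_smul (f y)

/-- the integral of a derivative along the fibre vanishes -/
theorem integral_fderiv_fibre (μ : Measure F) [μ.IsAddHaarMeasure]
    {h : F → V} (hh : ContDiff ℝ 1 h) (hc : HasCompactSupport h) (v : F) :
    ∫ y, fderiv ℝ h y v ∂μ = 0 := by
  have hint : Integrable (fun y => fderiv ℝ h y v) μ := by
    have h1 : Continuous fun y => fderiv ℝ h y v :=
      (hh.continuous_fderiv (by norm_num)).clm_apply continuous_const
    have h2 : HasCompactSupport fun y => fderiv ℝ h y v :=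
      (hc.fderiv ℝ).comp_left (g := fun L : F →L[ℝ] V => L v) (by simp)
    exact h1.integrable_of_hasCompactSupport h2
  have hint2 : Integrable h μ := hh.continuous.integrable_of_hasCompactSupport hc
  have := integral_smul_fderiv_eq_neg_fderiv_smul_of_integrable (μ := μ) (𝕜 := ℝ)
    (f := fun _ : F => (1 : ℝ)) (g := h) (v := v) (by simp) (by simpa using hint)
    (by simpa using hint2) (fun y _ => differentiableAt_const _)
    (fun y _ => hh.differentiable (by norm_num) y)
  simpa using this

end Vale.Agent.P231.Fm
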