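import Vale.Agent.P231.Fm.Fib

/-!
# P231, forms layer: the homotopy operator
-/

set_option linter.unusedSectionVars false

open MeasureTheory Set Module
open scoped ContDiff

namespace Vale.Agent.P231.Fm

variable {E : Type*} [NormedAddCommGroup E] [NormedSpace ℝ E] [FiniteDimensional ℝ E]
variable {V : Type*} [NormedAddCommGroup V] [NormedSpace ℝ V] [CompleteSpace V]

/-- the weight of the unit interval -/
noncomputable def w01 (t : ℝ) : ℝ := (Ioc (0 : ℝ) 1).indicator (fun _ => 1) t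

theorem locallyIntegrable_w01 : LocallyIntegrable w01 volume := by
  have h : Integrable w01 volume := by
    have : IntegrableOn (fun _ : ℝ => (1 : ℝ)) (Ioc 0 1) volume :=
      integrableOn_const (by simp) (by simp)
    exact (integrable_indicator_iff measurableSet_Ioc).2 this
  exact h.locallyIntegrable

/-- a smooth cutoff in time -/
theorem exists_chi : ∃ χ : ℝ → ℝ, ContDiff ℝ ∞ χ ∧ (∀ t ∈ Icc (0 : ℝ) 1, χ t = 1) ∧
    ∀ t ∉ Icc (-1 : ℝ) 2, χ t = 0 := by
  let f : ContDiffBump (1 / 2 : ℝ) := ⟨1 / 2, 3 / 2, by norm_num, by norm_num⟩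
  refine ⟨f, f.contDiff, fun t ht => ?_, fun t ht => ?_⟩
  · refine f.one_of_mem_closedBall ?_
    rw [Metric.mem_closedBall, Real.dist_eq, abs_le]
    change -(1 / 2) ≤ _ ∧ _ ≤ 1 / 2
    constructor <;> linarith [ht.1, ht.2]
  · refine f.zero_of_le_dist ?_
    rw [Real.dist_eq]
    change 3 / 2 ≤ _
    rw [mem_Icc, not_and_or, not_le, not_le] at ht
    rcases ht with h | h
    · rw [abs_of_neg (by linarith)]; linarith
    · rw [abs_of_pos (by linarith)]; linarith

theorem integral_w01 {χ : ℝ → ℝ} (h1 : ∀ t ∈ Icc (0 : ℝ) 1, χ t = 1) (g : ℝ → V) :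
    ∫ t, w01 t • (χ t • g t) = ∫ t in (0 : ℝ)..1, g t := by
  rw [intervalIntegral.integral_of_le zero_le_one, ← integral_indicator measurableSet_Ioc]
  refine integral_congr_ae (Filter.Eventually.of_forall fun t => ?_)
  by_cases ht : t ∈ Ioc (0 : ℝ) 1
  · simp only [w01, indicator_of_mem ht, one_smul]
    rw [h1 t ⟨ht.1.le, ht.2⟩, one_smul]
  · simp only [w01, indicator_of_notMem ht, zero_smul]

/-- smoothness of the time integral -/
theorem contDiffOn_time {n : ℕ∞} {U : Set E} (hU : IsOpen U) {g : E × ℝ → V}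
    (hg : ContDiffOn ℝ n g (U ×ˢ univ)) : ContDiffOn ℝ n (fun x => ∫ t in (0 : ℝ)..1, g (x, t)) U := by
  obtain ⟨χ, hχ, h1, h2⟩ := exists_chi
  have hχ' : ContDiff ℝ n χ := hχ.of_le (by exact_mod_cast le_top)
  have hg' : ContDiffOn ℝ n (fun p : E × ℝ => χ p.2 • g p) (U ×ˢ univ) :=
    (hχ'.comp contDiff_snd).contDiffOn.smul hg
  have h3 := contDiffOn_param volume hU (isCompact_Icc (a := (-1 : ℝ)) (b := 2))
    locallyIntegrable_w01 hg' fun x _ t ht => by rw [h2 t ht, zero_smul]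
  refine h3.congr fun x _ => ?_
  rw [integral_w01 h1]

/-- derivative of the time integral -/
theorem hasFDerivAt_time {U : Set E} (hU : IsOpen U) {g : E × ℝ → V}
    (hg : ContDiffOn ℝ 1 g (U ×ˢ univ)) {x : E} (hx : x ∈ U) :
    HasFDerivAt (fun x => ∫ t in (0 : ℝ)..1, g (x, t))
      (∫ t in (0 : ℝ)..1, fderiv ℝ g (x, t) ∘L ContinuousLinearMap.inl ℝ E ℝ) x := by
  obtain ⟨χ, hχ, h1, h2⟩ := exists_chi
  have hχ' : ContDiff ℝ 1 χ := hχ.of_le (by exact_mod_cast le_top)
  have hopen : IsOpen (U ×ˢ (univ : Set ℝ)) := hU.prod isOpen_univ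
  have hg' : ContDiffOn ℝ 1 (fun p : E × ℝ => χ p.2 • g p) (U ×ˢ univ) :=
    (hχ'.comp contDiff_snd).contDiffOn.smul hg
  have h3 := hasFDerivAt_param volume hU (isCompact_Icc (a := (-1 : ℝ)) (b := 2))
    locallyIntegrable_w01 hg' (fun x _ t ht => by rw [h2 t ht, zero_smul]) hx
  have h4 : (fun x => ∫ t, w01 t • (χ t • g (x, t))) = fun x => ∫ t in (0 : ℝ)..1, g (x, t) := by
    funext z
    exact integral_w01 h1 _
  have h5 : ∀ t, fderiv ℝ (fun p : E × ℝ => χ p.2 • g p) (x, t) ∘L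
      ContinuousLinearMap.inl ℝ E ℝ =
        χ t • (fderiv ℝ g (x, t) ∘L ContinuousLinearMap.inl ℝ E ℝ) := by
    intro t
    have hd : DifferentiableAt ℝ g (x, t) :=
      (hg.differentiableOn (by norm_num)).differentiableAt (hopen.mem_nhds ⟨hx, mem_univ _⟩)
    have hd2 : HasFDerivAt (fun p : E × ℝ => χ p.2)
        (fderiv ℝ χ t ∘L ContinuousLinearMap.snd ℝ E ℝ) (x, t) :=
      ((hχ'.differentiable (by norm_num)) t).hasFDerivAt.comp (x, t) hasFDerivAt_snd
    rw [(hd2.fun_smul hd.hasFDerivAt).fderiv]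
    ext u
    simp
  have h6 : ∫ t, w01 t • (fderiv ℝ (fun p : E × ℝ => χ p.2 • g p) (x, t) ∘L
      ContinuousLinearMap.inl ℝ E ℝ) =
      ∫ t in (0 : ℝ)..1, fderiv ℝ g (x, t) ∘L ContinuousLinearMap.inl ℝ E ℝ := by
    rw [← integral_w01 h1]
    exact integral_congr_ae (Filter.Eventually.of_forall fun t => by
      change w01 t • _ = w01 t • _
      rw [h5])
  rw [← h6, ← h4]
  exact h3

/-- restriction of a form on `E × ℝ` to a time slice -/
noncomputable def at0 : Lam (E × ℝ) →L[ℝ] Lam E := pullL (ContinuousLinearMap.inl ℝ E ℝ)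

/-- contraction with `∂_t`, restricted to a time slice -/
noncomputable def at1 : Lam (E × ℝ) →L[ℝ] Lam E := at0 ∘L iprodL ((0, 1) : E × ℝ)

theorem at0_apply (w : Lam (E × ℝ)) : at0 w = pull (ContinuousLinearMap.inl ℝ E ℝ) w := rfl

theorem at1_apply (w : Lam (E × ℝ)) : at1 w = at0 (iprod ((0, 1) : E × ℝ) w) := rfl

/-- the homotopy operator -/
noncomputable def kop (w : E × ℝ → Lam (E × ℝ)) (x : E) : Lam E :=
  ∫ t in (0 : ℝ)..1, at1 (w (x, t))

theorem contDiffOn_kop {n : ℕ∞} {U : Set E} (hU : IsOpen U) {w : E × ℝ → Lam (E × ℝ)}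
    (hw : ContDiffOn ℝ n w (U ×ˢ univ)) : ContDiffOn ℝ n (kop w) U :=
  contDiffOn_time hU ((at1 (E := E)).contDiff.comp_contDiffOn hw)

/-- the exterior derivative on a slice -/
theorem at0_extd {w : E × ℝ → Lam (E × ℝ)} {x : E} {t : ℝ} (hw : DifferentiableAt ℝ w (x, t)) :
    at0 (extd w (x, t)) = extd (fun z => at0 (w (z, t))) x := by
  have h1 : HasFDerivAt (fun z => at0 (w (z, t)))
      (at0 ∘L (fderiv ℝ w (x, t) ∘L ContinuousLinearMap.inl ℝ E ℝ)) x :=
    (at0 (E := E)).hasFDerivAt.comp x (hw.hasFDerivAt.comp x (hasFDerivAt_prodMk_left x t))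
  rw [extd_of h1, at0_apply, extd, pull_dLin]
  rfl

/-- the homotopy formula -/
theorem kop_homotopy {U : Set E} (hU : IsOpen U) {w : E × ℝ → Lam (E × ℝ)}
    (hw : ContDiffOn ℝ 1 w (U ×ˢ univ)) {x : E} (hx : x ∈ U) :
    at0 (w (x, 1)) - at0 (w (x, 0)) = kop (extd w) x + extd (kop w) x := by
  have hopen : IsOpen (U ×ˢ (univ : Set ℝ)) := hU.prod isOpen_univ
  have hd : ∀ t, DifferentiableAt ℝ w (x, t) := fun t =>
    (hw.differentiableOn (by norm_num)).differentiableAt (hopen.mem_nhds ⟨hx, mem_univ _⟩)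
  have hG : ContinuousOn (fderiv ℝ w) (U ×ˢ univ) :=
    hw.continuousOn_fderiv_of_isOpen hopen (by norm_num)
  have hcf : Continuous fun t => fderiv ℝ w (x, t) :=
    hG.comp_continuous (Continuous.prodMk_right x) fun t => ⟨hx, mem_univ _⟩
  let u : E × ℝ := (0, 1)
  let w' : E × ℝ → Lam (E × ℝ) := fun p => iprod u (w p)
  have hw' : ContDiffOn ℝ 1 w' (U ×ˢ univ) := (iprodL u).contDiff.comp_contDiffOn hw
  have hd' : ∀ t, DifferentiableAt ℝ w' (x, t) := fun t =>
    (hw'.differentiableOn (by norm_num)).differentiableAt (hopen.mem_nhds ⟨hx, mem_univ _⟩)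
  have hG' : ContinuousOn (fderiv ℝ w') (U ×ˢ univ) :=
    hw'.continuousOn_fderiv_of_isOpen hopen (by norm_num)
  have hcf' : Continuous fun t => fderiv ℝ w' (x, t) :=
    hG'.comp_continuous (Continuous.prodMk_right x) fun t => ⟨hx, mem_univ _⟩
  -- fundamental theorem of calculus
  have hder : ∀ t, HasDerivAt (fun t => at0 (w (x, t))) (at0 (fderiv ℝ w (x, t) u)) t := by
    intro t
    have h1 : HasFDerivAt (fun s => w (x, s)) (fderiv ℝ w (x, t) ∘L
        ContinuousLinearMap.inr ℝ E ℝ) t := (hd t).hasFDerivAt.comp t (hasFDerivAt_prodMk_right x t)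
    have h2 := ((at0 (E := E)).hasFDerivAt.comp t h1).hasDerivAt
    refine HasDerivAt.congr_deriv (f := fun t => at0 (w (x, t))) h2 ?_
    simp [u]
  have hint : Continuous fun t => at0 (fderiv ℝ w (x, t) u) :=
    (at0 (E := E)).continuous.comp (hcf.clm_apply continuous_const)
  have hftc := intervalIntegral.integral_eq_sub_of_hasDerivAt (a := (0 : ℝ)) (b := 1)
    (fun t _ => hder t) (hint.intervalIntegrable _ _)
  rw [← hftc]
  have hsplit : ∀ t, at0 (fderiv ℝ w (x, t) u) = at1 (extd w (x, t)) + at0 (extd w' (x, t)) := by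
    intro t
    have h4 := iprod_extd (hd t) u
    rw [at1_apply, ← map_add]
    exact congrArg at0 h4.symm
  have hc1 : Continuous fun t => at1 (extd w (x, t)) :=
    (at1 (E := E)).continuous.comp (dLin.continuous.comp hcf)
  have hc2 : Continuous fun t => at0 (extd w' (x, t)) :=
    (at0 (E := E)).continuous.comp (dLin.continuous.comp hcf')
  simp only [hsplit]
  rw [intervalIntegral.integral_add (hc1.intervalIntegrable _ _) (hc2.intervalIntegrable _ _)]
  congr 1
  -- differentiate under the integral sign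
  have h5 := hasFDerivAt_time hU ((at1 (E := E)).contDiff.comp_contDiffOn hw) hx
  have h6 : extd (kop w) x = _ := extd_of (w := kop w) h5
  rw [h6]
  have h7 : ∀ t, fderiv ℝ (fun p : E × ℝ => at1 (w p)) (x, t) = at1 ∘L fderiv ℝ w (x, t) :=
    fun t => ((at1 (E := E)).hasFDerivAt.comp (x, t) (hd t).hasFDerivAt).fderiv
  have h8 : Continuous fun t => (at1 (E := E) ∘L fderiv ℝ w (x, t)) ∘L
      ContinuousLinearMap.inl ℝ E ℝ :=
    (continuous_const.clm_comp hcf).clm_comp continuous_const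
  have h9 : (fun t => fderiv ℝ (⇑(at1 (E := E)) ∘ w) (x, t) ∘L ContinuousLinearMap.inl ℝ E ℝ) =
      fun t => (at1 (E := E) ∘L fderiv ℝ w (x, t)) ∘L ContinuousLinearMap.inl ℝ E ℝ := by
    funext t
    rw [← h7 t]
    rfl
  rw [h9, ← ContinuousLinearMap.intervalIntegral_comp_comm dLin (h8.intervalIntegrable _ _)]
  refine intervalIntegral.integral_congr fun t _ => ?_
  change at0 (extd w' (x, t)) = dLin ((at1 (E := E) ∘L fderiv ℝ w (x, t)) ∘L
    ContinuousLinearMap.inl ℝ E ℝ)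
  rw [at0_apply, extd, pull_dLin]
  have h10 : fderiv ℝ w' (x, t) = iprodL u ∘L fderiv ℝ w (x, t) :=
    ((iprodL u).hasFDerivAt.comp (x, t) (hd t).hasFDerivAt).fderiv
  rw [h10]
  rfl

end Vale.Agent.P231.Fm
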