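import Vale.Agent.P231.Q.Deg
import Vale.Agent.P231.Fm.Homot

/-!
# P231, forms: integrality of the mapping degree

`exists_int_degree` : `U` open, `V` open convex, `f` smooth on `U` with values in the same space,
proper over `V`; then there is an integer `k` with `∫_U (g ∘ f) det f' = k ∫ g` for all smooth `g`
with compact support in `V`.
-/

set_option linter.unusedSectionVars false

open Module MeasureTheory Set Metric
open scoped ContDiff Topology

namespace Vale.Agent.P231.Fm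

variable {E : Type*} [NormedAddCommGroup E] [NormedSpace ℝ E] [FiniteDimensional ℝ E]

theorem two_le_inf : (2 : WithTop ℕ∞) ≤ ∞ := by
  exact WithTop.coe_le_coe.2 le_top

/-- contraction of a product of covectors which all vanish on `u` -/
theorem iprod_ofFn_eq_zero {n : ℕ} (a : Fin n → (E →L[ℝ] ℝ)) (u : E) (h : ∀ i, a i u = 0) :
    iprod u (List.ofFn fun i => dx (a i)).prod = 0 := by
  induction n with
  | zero => simp
  | succ n ih =>
    rw [List.ofFn_succ, List.prod_cons, iprod_dx_mul, h 0, zero_smul,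
      ih (fun i => a i.succ) (fun i => h i.succ), mul_zero, sub_zero]

theorem cont_ofFn {n : ℕ} (a : Fin n → (E →L[ℝ] ℝ)) (v : Fin n → E)
    (h : ∀ i j, a i (v j) = if i = j then 1 else 0) :
    cont v (List.ofFn fun i => dx (a i)).prod = 1 := by
  induction n with
  | zero => simp
  | succ n ih =>
    rw [cont_succ, List.ofFn_succ, List.prod_cons, iprod_dx_mul, h 0 0, if_pos rfl, one_smul,
      iprod_ofFn_eq_zero (fun i : Fin n => a i.succ) (v 0) (fun i => by
        rw [h]; exact if_neg (Fin.succ_ne_zero i)), mul_zero, sub_zero]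
    refine ih (fun i => a i.succ) (fun i => v i.succ) fun i j => ?_
    rw [h]
    simp only [Fin.succ_inj]

theorem isDeg_ofFn {n : ℕ} (a : Fin n → (E →L[ℝ] ℝ)) :
    Q.IsDeg n (List.ofFn fun i => dx (a i)).prod := by
  induction n with
  | zero => simpa using (Q.isDeg_one (E := E))
  | succ n ih =>
    have h := (Q.isDeg_dx (a 0)).mul (ih fun i => a i.succ)
    rw [List.ofFn_succ, List.prod_cons]
    rwa [add_comm 1 n] at h

/-- a top form of value one on a basis -/
theorem exists_top {n : ℕ} (b : Basis (Fin n) ℝ E) :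
    ∃ τ : Lam E, evalForm τ b = 1 ∧ Q.IsDeg n τ := by
  refine ⟨(List.ofFn fun i => dx (LinearMap.toContinuousLinearMap (b.coord i))).prod, ?_,
    isDeg_ofFn _⟩
  rw [evalForm_apply, cont_ofFn, map_one]
  intro i j
  rw [LinearMap.coe_toContinuousLinearMap', Basis.coord_apply, Basis.repr_self,
    Finsupp.single_apply]
  simp only [eq_comm]

variable [MeasurableSpace E] [BorelSpace E]

/-- Stokes for a pulled back form -/
theorem integral_pb_extd (μ : Measure E) [μ.IsAddHaarMeasure] {n : ℕ} (b : Fin n → E)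
    {U : Set E} (hU : IsOpen U) {f : E → E} (hf : ContDiffOn ℝ ∞ f U)
    {η : E → Lam E} (hη : ContDiff ℝ ∞ η) {K : Set E} (hK : IsCompact K) (hKU : K ⊆ U)
    (hηK : ∀ x ∈ U, f x ∈ tsupport η → x ∈ K) :
    ∫ x in U, evalForm (pb f (extd η) x) b ∂μ = 0 := by
  classical
  let w : E → Lam E := U.indicator (pb f η)
  have h0 : ∀ x ∉ K, w x = 0 := by
    intro x hx
    by_cases hxU : x ∈ U
    · rw [show w x = pb f η x from indicator_of_mem hxU _, pb]
      have : η (f x) = 0 := image_eq_zero_of_notMem_tsupport fun h => hx (hηK x hxU h)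
      rw [this, map_zero]
    · exact indicator_of_notMem hxU _
  have hev : ∀ x ∈ U, w =ᶠ[𝓝 x] pb f η := fun x hx => by
    filter_upwards [hU.mem_nhds hx] with y hy using indicator_of_mem hy _
  have hev0 : ∀ x ∉ K, w =ᶠ[𝓝 x] fun _ => 0 := fun x hx => by
    filter_upwards [hK.isClosed.isOpen_compl.mem_nhds hx] with y hy using h0 y hy
  have hfa : ∀ x ∈ U, ContDiffAt ℝ ∞ f x := fun x hx => hf.contDiffAt (hU.mem_nhds hx)
  have hw : ContDiff ℝ ∞ w := by
    rw [contDiff_iff_contDiffAt]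
    intro x
    by_cases hxU : x ∈ U
    · exact (contDiffAt_pb (hfa x hxU) hη.contDiffAt (by simp)).congr_of_eventuallyEq (hev x hxU)
    · exact contDiffAt_const.congr_of_eventuallyEq (hev0 x fun h => hxU (hKU h))
  have hc : HasCompactSupport w := HasCompactSupport.intro hK h0
  have h1 := integral_evalForm_extd μ b (hw.of_le (by simp)) hc
  rw [← integral_indicator hU.measurableSet, ← h1]
  congr 1
  ext x
  by_cases hxU : x ∈ U
  · rw [indicator_of_mem hxU, extd_congr (hev x hxU), extd_pb ((hfa x hxU).of_le two_le_inf)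
      (hη.differentiable (by simp) _)]
  · rw [indicator_of_notMem hxU, extd_congr (hev0 x fun h => hxU (hKU h)), extd_const,
      evalForm_apply, map_zero, map_zero]

omit [MeasurableSpace E] [BorelSpace E] in
/-- a homothety does not change the class of a top form -/
theorem exists_prim {n : ℕ} (hn : finrank ℝ E = n) {τ : Lam E} (hτ : Q.IsDeg n τ) {V : Set E}
    (hV : Convex ℝ V) {g : E → ℝ} (hg : ContDiff ℝ ∞ g) (hc : HasCompactSupport g)
    (hgV : tsupport g ⊆ V) {y₀ : E} (hy : y₀ ∈ V) {R : ℝ} (hR : 1 ≤ R) :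
    ∃ η : E → Lam E, ContDiff ℝ ∞ η ∧ HasCompactSupport η ∧ tsupport η ⊆ V ∧
      ∀ y, (R ^ n * g (y₀ + R • (y - y₀))) • τ - g y • τ = extd η y := by
  let h : E × ℝ → E := fun p => y₀ + (1 + p.2 * (R - 1)) • (p.1 - y₀)
  let om : E → Lam E := fun y => g y • τ
  have hom : ContDiff ℝ ∞ om := hg.smul contDiff_const
  have hh : ContDiff ℝ ∞ h := by fun_prop
  have hcl : ∀ y, extd om y = 0 := fun y =>
    (Q.IsDeg.extd (w := om) (hom.differentiable (by simp) y)
      (Filter.Eventually.of_forall fun z => hτ.smul _)).eq_zero (by omega)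
  have hW : ContDiff ℝ ∞ (pb h om) := contDiff_iff_contDiffAt.2 fun p =>
    contDiffAt_pb hh.contDiffAt hom.contDiffAt (by simp)
  have hWc : ∀ p, extd (pb h om) p = 0 := fun p => by
    rw [extd_pb (hh.contDiffAt.of_le two_le_inf) (hom.differentiable (by simp) _), pb, hcl, map_zero]
  have h1 : ∀ y, at0 (pb h om (y, 1)) - at0 (pb h om (y, 0)) = extd (kop (pb h om)) y := fun y => by
    have h3 := kop_homotopy isOpen_univ (w := pb h om) (U := univ)
      ((hW.of_le (by simp)).contDiffOn) (mem_univ y)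
    have h4 : kop (extd (pb h om)) y = 0 := by
      unfold kop
      simp [hWc]
    rw [h3, h4, zero_add]
  have h2 : ∀ y s, at0 (pb h om (y, s)) = ((1 + s * (R - 1)) ^ n * g (h (y, s))) • τ := by
    intro y s
    rw [at0_apply, pb, ← pull_comp_apply]
    have h5 : (fderiv ℝ h (y, s)).comp (ContinuousLinearMap.inl ℝ E ℝ) =
        Q.hom E (1 + s * (R - 1)) := by
      have e1 : HasFDerivAt (fun z => h (z, s))
          ((fderiv ℝ h (y, s)).comp (ContinuousLinearMap.inl ℝ E ℝ)) y := by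
        have e3 : HasFDerivAt h (fderiv ℝ h (y, s)) (y, s) :=
          (hh.differentiable (by simp) (y, s)).hasFDerivAt
        exact HasFDerivAt.comp (g := h) (f := fun z => (z, s)) y e3 (hasFDerivAt_prodMk_left y s)
      have e2 : HasFDerivAt (fun z => h (z, s)) (Q.hom E (1 + s * (R - 1))) y :=
        (((hasFDerivAt_id y).sub_const y₀).const_smul (1 + s * (R - 1))).const_add y₀
      exact e1.unique e2
    rw [h5, map_smul, hτ.pull_hom, smul_smul, mul_comm]
  have hkd : ContDiff ℝ ∞ (kop (pb h om)) :=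
    contDiffOn_univ.1 (contDiffOn_kop (n := ⊤) isOpen_univ hW.contDiffOn)
  let T : Set E := (fun p : E × ℝ => y₀ + p.2 • (p.1 - y₀)) '' (tsupport g ×ˢ Icc (0 : ℝ) 1)
  have hT : IsCompact T := (hc.isCompact.prod isCompact_Icc).image (by fun_prop)
  have hTV : T ⊆ V := by
    rintro _ ⟨⟨z, t⟩, ⟨hz, ht⟩, rfl⟩
    exact hV.add_smul_sub_mem hy (hgV hz) ht
  have hkT : ∀ y ∉ T, kop (pb h om) y = 0 := by
    intro y hyT
    unfold kop
    rw [intervalIntegral.integral_congr (g := fun _ => 0)]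
    · simp
    intro t ht
    rw [uIcc_of_le zero_le_one] at ht
    have hr : 1 ≤ 1 + t * (R - 1) := by nlinarith [ht.1, ht.2]
    have h6 : g (h (y, t)) = 0 := by
      by_contra h7
      apply hyT
      refine ⟨(h (y, t), (1 + t * (R - 1))⁻¹), ⟨subset_tsupport g h7, ?_, ?_⟩, ?_⟩
      · simp only; positivity
      · exact inv_le_one_of_one_le₀ hr
      · simp only [h, add_sub_cancel_left]
        rw [smul_smul, inv_mul_cancel₀ (by positivity), one_smul, add_sub_cancel]
    simp only [pb, om, h6, zero_smul, map_zero]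
  refine ⟨kop (pb h om), hkd, HasCompactSupport.intro hT hkT,
    (closure_minimal (fun y hy => ?_) hT.isClosed).trans hTV, fun y => ?_⟩
  · by_contra h8
    exact hy (hkT y h8)
  · rw [← h1, h2, h2]
    simp [h]

omit [MeasurableSpace E] [BorelSpace E] in
/-- good neighbourhood of a regular point -/
theorem exists_good_nhds {U : Set E} (hU : IsOpen U) {f : E → E} (hf : ContDiffOn ℝ ∞ f U)
    {x : E} (hx : x ∈ U) (hd : (fderiv ℝ f x).det ≠ 0) :
    ∃ O : Set E, IsOpen O ∧ x ∈ O ∧ O ⊆ U ∧ InjOn f O ∧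
      (∀ N ⊆ O, IsOpen N → x ∈ N → f '' N ∈ 𝓝 (f x)) ∧
      ∃ s : ℤ, ∀ z ∈ O, (fderiv ℝ f z).det = s * |(fderiv ℝ f z).det| := by
  have hfa : ContDiffAt ℝ ∞ f x := hf.contDiffAt (hU.mem_nhds hx)
  have hs : HasStrictFDerivAt f (((fderiv ℝ f x).toContinuousLinearEquivOfDetNeZero hd :
      E ≃L[ℝ] E) : E →L[ℝ] E) x := by
    rw [ContinuousLinearMap.coe_toContinuousLinearEquivOfDetNeZero]
    exact hfa.hasStrictFDerivAt (by simp)
  have hcont : ContinuousOn (fun z => (fderiv ℝ f z).det) U :=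
    ContinuousLinearMap.continuous_det.comp_continuousOn
      (hf.continuousOn_fderiv_of_isOpen hU (by simp))
  have hpos : ∀ᶠ z in 𝓝 x, 0 < (fderiv ℝ f z).det * (fderiv ℝ f x).det := by
    have h1 : ContinuousAt (fun z => (fderiv ℝ f z).det * (fderiv ℝ f x).det) x :=
      (hcont.continuousAt (hU.mem_nhds hx)).mul continuousAt_const
    exact h1.eventually (lt_mem_nhds (mul_self_pos.2 hd))
  obtain ⟨D, hD, hDo, hxD⟩ := _root_.eventually_nhds_iff.1 hpos
  let e := hs.toOpenPartialHomeomorph f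
  refine ⟨e.source ∩ (D ∩ U), e.open_source.inter (hDo.inter hU),
    ⟨hs.mem_toOpenPartialHomeomorph_source, hxD, hx⟩, fun z hz => hz.2.2, ?_, ?_, ?_⟩
  · exact (show InjOn f e.source from e.injOn).mono inter_subset_left
  · intro N _ hNo hxN
    rw [← hs.map_nhds_eq_of_equiv]
    exact Filter.image_mem_map (hNo.mem_nhds hxN)
  · rcases lt_or_gt_of_ne hd with h | h
    · refine ⟨-1, fun z hz => ?_⟩
      have h2 := hD z hz.2.1
      rw [abs_of_neg (by nlinarith)]
      simp
    · refine ⟨1, fun z hz => ?_⟩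
      have h2 := hD z hz.2.1
      rw [abs_of_pos (by nlinarith)]
      simp

/-- the degree near a regular value -/
theorem local_degree (μ : Measure E) [μ.IsAddHaarMeasure] {U V : Set E} (hU : IsOpen U)
    (hV : IsOpen V) {f : E → E} (hf : ContDiffOn ℝ ∞ f U)
    (hp : ∀ K ⊆ V, IsCompact K → IsCompact {x | x ∈ U ∧ f x ∈ K}) {y₀ : E} (hy : y₀ ∈ V)
    (hreg : ∀ x ∈ U, f x = y₀ → (fderiv ℝ f x).det ≠ 0) :
    ∃ ε > 0, ∃ k : ℤ, ∀ g : E → ℝ, Continuous g → (∀ y ∉ ball y₀ ε, g y = 0) →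
      ∫ x in U, g (f x) * (fderiv ℝ f x).det ∂μ = k * ∫ y, g y ∂μ := by
  classical
  have hfc : ContinuousOn f U := hf.continuousOn
  -- the fibre is finite
  have hS : IsCompact {x | x ∈ U ∧ f x ∈ ({y₀} : Set E)} :=
    hp _ (singleton_subset_iff.2 hy) isCompact_singleton
  have hgood : ∀ x, ∃ O : Set E, x ∈ U ∧ f x = y₀ → IsOpen O ∧ x ∈ O ∧ O ⊆ U ∧ InjOn f O ∧
      (∀ N ⊆ O, IsOpen N → x ∈ N → f '' N ∈ 𝓝 (f x)) ∧
      ∃ s : ℤ, ∀ z ∈ O, (fderiv ℝ f z).det = s * |(fderiv ℝ f z).det| := by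
    intro x
    by_cases h : x ∈ U ∧ f x = y₀
    · obtain ⟨O, hO⟩ := exists_good_nhds hU hf h.1 (hreg x h.1 h.2)
      exact ⟨O, fun _ => hO⟩
    · exact ⟨∅, fun h' => absurd h' h⟩
  choose O hO using hgood
  obtain ⟨t, ht, htc⟩ := hS.elim_nhds_subcover O fun x hx =>
    (hO x hx).1.mem_nhds (hO x hx).2.1
  have hfib : ∀ x, x ∈ U → f x = y₀ → x ∈ t := by
    intro x hx hxy
    obtain ⟨z, hzt, hz⟩ := mem_iUnion₂.1 (htc ⟨hx, hxy⟩)
    have h1 := hO z (ht z hzt)
    have : x = z := h1.2.2.2.1 hz h1.2.1 (hxy.trans (ht z hzt).2.symm)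
    rwa [this]
  obtain ⟨D, hD, hDd⟩ := t.finite_toSet.t2_separation
  let N : E → Set E := fun x => O x ∩ D x
  have hNo : ∀ x ∈ t, IsOpen (N x) := fun x hx => (hO x (ht x hx)).1.inter (hD x).2
  have hxN : ∀ x ∈ t, x ∈ N x := fun x hx => ⟨(hO x (ht x hx)).2.1, (hD x).1⟩
  have hNU : ∀ x ∈ t, N x ⊆ U := fun x hx => inter_subset_left.trans (hO x (ht x hx)).2.2.1
  have hNi : ∀ x ∈ t, InjOn f (N x) := fun x hx =>
    (hO x (ht x hx)).2.2.2.1.mono inter_subset_left
  have hNd : (t : Set E).PairwiseDisjoint N := fun x hx y hy' hxy =>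
    (hDd hx hy' hxy).mono inter_subset_right inter_subset_right
  -- radii
  obtain ⟨ε₀, hε₀, hB⟩ := nhds_basis_closedBall.mem_iff.1 (hV.mem_nhds hy)
  have hK : IsCompact {x | x ∈ U ∧ f x ∈ closedBall y₀ ε₀} := hp _ hB (isCompact_closedBall _ _)
  have hWo : IsOpen (⋃ x ∈ t, N x) := isOpen_biUnion hNo
  have hK' : IsCompact ({x | x ∈ U ∧ f x ∈ closedBall y₀ ε₀} \ ⋃ x ∈ t, N x) := hK.diff hWo
  have hfK' : IsCompact (f '' ({x | x ∈ U ∧ f x ∈ closedBall y₀ ε₀} \ ⋃ x ∈ t, N x)) :=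
    hK'.image_of_continuousOn (hfc.mono fun x hx => hx.1.1)
  have hyK' : (f '' ({x | x ∈ U ∧ f x ∈ closedBall y₀ ε₀} \ ⋃ x ∈ t, N x))ᶜ ∈ 𝓝 y₀ := by
    refine hfK'.isClosed.isOpen_compl.mem_nhds ?_
    rintro ⟨x, ⟨⟨hxU, _⟩, hxn⟩, hxy⟩
    exact hxn (mem_iUnion₂.2 ⟨x, hfib x hxU hxy, hxN x (hfib x hxU hxy)⟩)
  have hall : (⋂ x ∈ t, f '' N x) ∈ 𝓝 y₀ := by
    refine (Filter.biInter_finset_mem t).2 fun x hx => ?_
    have h1 := (hO x (ht x hx)).2.2.2.2.1 (N x) inter_subset_left (hNo x hx) (hxN x hx)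
    rwa [(ht x hx).2] at h1
  obtain ⟨ε, hε, hεs⟩ := nhds_basis_ball.mem_iff.1
    (Filter.inter_mem (Filter.inter_mem hyK' hall) (closedBall_mem_nhds y₀ hε₀))
  choose! s hs using fun x (hx : x ∈ t) => (hO x (ht x hx)).2.2.2.2.2
  refine ⟨ε, hε, ∑ x ∈ t, s x, fun g hg hg0 => ?_⟩
  have hgc : HasCompactSupport g := HasCompactSupport.intro (isCompact_closedBall y₀ ε)
    fun y hy => hg0 y fun h => hy (ball_subset_closedBall h)
  have hgi : Integrable g μ := hg.integrable_of_hasCompactSupport hgc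
  -- each sheet
  have hmeas : ∀ x ∈ t, MeasurableSet (N x) := fun x hx => (hNo x hx).measurableSet
  have hder : ∀ x ∈ t, ∀ z ∈ N x, HasFDerivWithinAt f (fderiv ℝ f z) (N x) z :=
    fun x hx z hz => ((hf.differentiableOn (by simp)).differentiableAt
      (hU.mem_nhds (hNU x hx hz))).hasFDerivAt.hasFDerivWithinAt
  have hsheet : ∀ x ∈ t, IntegrableOn (fun z => g (f z) * (fderiv ℝ f z).det) (N x) μ ∧
      ∫ z in N x, g (f z) * (fderiv ℝ f z).det ∂μ = s x * ∫ y, g y ∂μ := by
    intro x hx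
    have e1 : ∀ z ∈ N x, g (f z) * (fderiv ℝ f z).det =
        (s x : ℝ) * (|(fderiv ℝ f z).det| • g (f z)) := by
      intro z hz
      conv_lhs => rw [hs x hx z hz.1]
      rw [smul_eq_mul]
      ring
    have e2 := (integrableOn_image_iff_integrableOn_abs_det_fderiv_smul μ (hmeas x hx)
      (hder x hx) (hNi x hx) g).1 hgi.integrableOn
    have e3 := integral_image_eq_integral_abs_det_fderiv_smul μ (hmeas x hx)
      (hder x hx) (hNi x hx) g
    refine ⟨(integrableOn_congr_fun e1 (hmeas x hx)).2 (e2.const_mul _), ?_⟩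
    rw [setIntegral_congr_fun (hmeas x hx) e1, integral_const_mul, ← e3]
    congr 1
    refine setIntegral_eq_integral_of_forall_compl_eq_zero fun y hy => hg0 y fun hyb => hy ?_
    exact mem_iInter₂.1 (hεs hyb).1.2 x hx
  have e4 : ∫ x in U, g (f x) * (fderiv ℝ f x).det ∂μ =
      ∫ x in ⋃ x ∈ t, N x, g (f x) * (fderiv ℝ f x).det ∂μ := by
    refine setIntegral_eq_of_subset_of_forall_sdiff_eq_zero hU.measurableSet
      (iUnion₂_subset hNU) fun x hx => ?_
    rw [hg0 (f x), zero_mul]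
    intro hb
    exact (hεs hb).1.1 ⟨x, ⟨⟨hx.1, (hεs hb).2⟩, hx.2⟩, rfl⟩
  rw [e4, integral_biUnion_finset t hmeas hNd fun x hx => (hsheet x hx).1,
    Finset.sum_congr rfl fun x hx => (hsheet x hx).2, ← Finset.sum_mul]
  push_cast
  rfl

theorem integrableOn_comp_det (μ : Measure E) [μ.IsAddHaarMeasure] {U V : Set E} (hU : IsOpen U)
    {f : E → E} (hf : ContDiffOn ℝ ∞ f U)
    (hp : ∀ K ⊆ V, IsCompact K → IsCompact {x | x ∈ U ∧ f x ∈ K}) {g : E → ℝ} (hg : Continuous g)
    (hgc : HasCompactSupport g) (hgV : tsupport g ⊆ V) :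
    IntegrableOn (fun x => g (f x) * (fderiv ℝ f x).det) U μ := by
  have hK := hp _ hgV hgc.isCompact
  have hcont : ContinuousOn (fun z => (fderiv ℝ f z).det) U :=
    ContinuousLinearMap.continuous_det.comp_continuousOn
      (hf.continuousOn_fderiv_of_isOpen hU (by simp))
  have h1 : ContinuousOn (fun x => g (f x) * (fderiv ℝ f x).det) U :=
    (hg.comp_continuousOn hf.continuousOn).mul hcont
  have h2 : IntegrableOn (fun x => g (f x) * (fderiv ℝ f x).det)
      {x | x ∈ U ∧ f x ∈ tsupport g} μ := (h1.mono fun x hx => hx.1).integrableOn_compact hK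
  refine h2.of_forall_sdiff_eq_zero hU.measurableSet fun x hx => ?_
  have : g (f x) = 0 := image_eq_zero_of_notMem_tsupport fun h => hx.2 ⟨hx.1, h⟩
  rw [this, zero_mul]

theorem integral_homothety (μ : Measure E) [μ.IsAddHaarMeasure] (g : E → ℝ) (y₀ : E) {R : ℝ}
    (hR : 0 < R) :
    ∫ y, R ^ finrank ℝ E * g (y₀ + R • (y - y₀)) ∂μ = ∫ y, g y ∂μ := by
  rw [integral_const_mul, integral_sub_right_eq_self (fun y => g (y₀ + R • y)) y₀,
    Measure.integral_comp_smul μ (fun y => g (y₀ + y)) R, integral_add_left_eq_self,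
    abs_of_pos (by positivity), smul_eq_mul, ← mul_assoc, mul_inv_cancel₀ (by positivity), one_mul]

/-- **Integrality of the mapping degree** -/
theorem exists_int_degree (μ : Measure E) [μ.IsAddHaarMeasure] {U V : Set E} (hU : IsOpen U)
    (hV : IsOpen V) (hVc : Convex ℝ V) {f : E → E} (hf : ContDiffOn ℝ ∞ f U)
    (hp : ∀ K ⊆ V, IsCompact K → IsCompact {x | x ∈ U ∧ f x ∈ K}) :
    ∃ k : ℤ, ∀ g : E → ℝ, ContDiff ℝ ∞ g → HasCompactSupport g → tsupport g ⊆ V →
      ∫ x in U, g (f x) * (fderiv ℝ f x).det ∂μ = k * ∫ y, g y ∂μ := by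
  rcases V.eq_empty_or_nonempty with hVe | hVn
  · refine ⟨0, fun g _ _ hgV => ?_⟩
    have hg0 : ∀ y, g y = 0 := fun y => image_eq_zero_of_notMem_tsupport fun h => by
      have := hgV h
      rw [hVe] at this
      exact this
    simp [hg0]
  -- a regular value
  let C : Set E := {x | x ∈ U ∧ (fderiv ℝ f x).det = 0}
  have hC : μ (f '' C) = 0 := addHaar_image_eq_zero_of_det_fderivWithin_eq_zero μ
    (fun x hx => ((hf.differentiableOn (by simp)).differentiableAt
      (hU.mem_nhds hx.1)).hasFDerivAt.hasFDerivWithinAt) (fun x hx => hx.2)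
  obtain ⟨y₀, hyV, hyC⟩ : ∃ y₀ ∈ V, y₀ ∉ f '' C := by
    by_contra h
    push Not at h
    exact (hV.measure_pos μ hVn).ne' (measure_mono_null h hC)
  obtain ⟨ε, hε, k, hk⟩ := local_degree μ hU hV hf hp hyV
    (fun x hx hxy hd => hyC ⟨x, ⟨hx, hd⟩, hxy⟩)
  refine ⟨k, fun g hg hgc hgV => ?_⟩
  -- the homothety
  obtain ⟨M, hM0, hM⟩ : ∃ M, 0 < M ∧ tsupport g ⊆ closedBall y₀ M :=
    (hgc.isCompact.isBounded.subset_closedBall_lt 0 y₀)
  have hR : 1 ≤ 1 + M / ε := by
    have : 0 < M / ε := by positivity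
    linarith
  have hR0 : (0 : ℝ) < 1 + M / ε := by linarith
  set R : ℝ := 1 + M / ε with hRdef
  let gR : E → ℝ := fun y => R ^ finrank ℝ E * g (y₀ + R • (y - y₀))
  have hgRc : ContDiff ℝ ∞ gR := by
    have : ContDiff ℝ ∞ fun y : E => y₀ + R • (y - y₀) := by fun_prop
    exact contDiff_const.mul (hg.comp this)
  have hgR0 : ∀ y ∉ ball y₀ ε, gR y = 0 := by
    intro y hy
    have h1 : g (y₀ + R • (y - y₀)) = 0 := by
      refine image_eq_zero_of_notMem_tsupport fun h => ?_
      have h2 := hM h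
      rw [mem_closedBall, dist_eq_norm, add_sub_cancel_left, norm_smul, Real.norm_eq_abs,
        abs_of_pos hR0] at h2
      rw [mem_ball, dist_eq_norm, not_lt] at hy
      have h3 : R * ε ≤ R * ‖y - y₀‖ := by gcongr
      have h4 : R * ε = ε + M := by
        rw [hRdef]
        field_simp
      linarith
    simp only [gR, h1, mul_zero]
  let b := Module.finBasis ℝ E
  obtain ⟨τ, hτ1, hτ⟩ := exists_top b
  obtain ⟨η, hη, hηc, hηV, hηe⟩ := exists_prim rfl hτ hVc hg hgc hgV hyV hR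
  have h1 := integral_pb_extd μ b hU hf hη (hp _ hηV hηc.isCompact) (fun x hx => hx.1)
    (fun x hx h => ⟨hx, h⟩)
  have h2 : ∀ x, evalForm (pb f (extd η) x) b =
      gR (f x) * (fderiv ℝ f x).det - g (f x) * (fderiv ℝ f x).det := by
    intro x
    rw [pb, evalForm_pull_det, ← hηe, evalForm_apply, map_sub, map_sub, map_smul, map_smul,
      map_smul, map_smul, ← evalForm_apply, hτ1]
    change (fderiv ℝ f x).det * _ = _
    simp only [smul_eq_mul, mul_one, gR]
    ring
  have hgRs : HasCompactSupport gR := HasCompactSupport.intro (isCompact_closedBall y₀ ε)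
    fun y hy => hgR0 y fun h => hy (ball_subset_closedBall h)
  have hgRV : tsupport gR ⊆ V := by
    have hcl : tsupport gR ⊆ (fun y => y₀ + R • (y - y₀)) ⁻¹' tsupport g := by
      refine closure_minimal (fun y hy => ?_)
        ((isClosed_tsupport g).preimage (by fun_prop))
      refine subset_tsupport g fun h0 => hy ?_
      simp only [gR, h0, mul_zero]
    intro y hy
    have h5 := hVc.add_smul_sub_mem hyV (hgV (hcl hy)) (t := R⁻¹)
      ⟨by positivity, inv_le_one_of_one_le₀ hR⟩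
    rwa [add_sub_cancel_left, smul_smul, inv_mul_cancel₀ hR0.ne', one_smul,
      add_sub_cancel] at h5
  have i1 := integrableOn_comp_det μ hU hf hp hgRc.continuous hgRs hgRV
  have i2 := integrableOn_comp_det μ hU hf hp hg.continuous hgc hgV
  simp only [h2] at h1
  rw [integral_sub i1 i2, sub_eq_zero] at h1
  rw [← h1, hk gR hgRc.continuous hgR0, integral_homothety μ g y₀ hR0]

/-- the same, for top forms -/
theorem exists_int_degree_form (μ : Measure E) [μ.IsAddHaarMeasure] {n : ℕ}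
    (b : Basis (Fin n) ℝ E) {U V : Set E} (hU : IsOpen U)
    (hV : IsOpen V) (hVc : Convex ℝ V) {f : E → E} (hf : ContDiffOn ℝ ∞ f U)
    (hp : ∀ K ⊆ V, IsCompact K → IsCompact {x | x ∈ U ∧ f x ∈ K}) :
    ∃ k : ℤ, ∀ w : E → Lam E, ContDiff ℝ ∞ w → HasCompactSupport w → tsupport w ⊆ V →
      ∫ x in U, evalForm (pb f w x) b ∂μ = k * ∫ y, evalForm (w y) b ∂μ := by
  obtain ⟨k, hk⟩ := exists_int_degree μ hU hV hVc hf hp
  refine ⟨k, fun w hw hwc hwV => ?_⟩
  have h0 : evalL b (0 : Lam E) = 0 := map_zero _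
  have h1 := hk (fun y => evalL b (w y)) ((evalL b).contDiff.comp hw)
    (hwc.comp_left (g := evalL b) h0) ((tsupport_comp_subset h0 w).trans hwV)
  have h2 : ∀ x, evalForm (pb f w x) b = evalL b (w (f x)) * (fderiv ℝ f x).det := by
    intro x
    rw [pb, evalForm_pull_det, mul_comm]
    rfl
  simp only [h2, h1]
  rfl

end Vale.Agent.P231.Fm
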