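import Vale.Agent.P231.Fm.Homot

/-!
# P231, forms layer (C): spaces with smooth plots, and differential forms on them

`Dif X` is a diffeology on `X`, given by germs: `D.At u x` says that `u : E → X` is a smooth plot
near the point `x` of the finite-dimensional space `E`. A form on such a space assigns to every
plot `u` a form `val u` on `E`, naturally in the plot.
-/

set_option linter.unusedSectionVars false
set_option linter.unusedVariables false

open MeasureTheory Set Module Filter Topology
open scoped ContDiff

namespace Vale.Agent.P231.Fm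

theorem two_le_infty : (2 : WithTop ℕ∞) ≤ ∞ := WithTop.coe_le_coe.2 le_top

/-- `g` is smooth near `x` -/
def Sm {E F : Type*} [NormedAddCommGroup E] [NormedSpace ℝ E] [NormedAddCommGroup F]
    [NormedSpace ℝ F] (g : E → F) (x : E) : Prop := ∀ᶠ y in 𝓝 x, ContDiffAt ℝ ∞ g y

namespace Sm

variable {E F G : Type*} [NormedAddCommGroup E] [NormedSpace ℝ E] [NormedAddCommGroup F]
  [NormedSpace ℝ F] [NormedAddCommGroup G] [NormedSpace ℝ G]

theorem contDiffAt {g : E → F} {x : E} (h : Sm g x) : ContDiffAt ℝ ∞ g x := h.self_of_nhds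

theorem continuousAt {g : E → F} {x : E} (h : Sm g x) : ContinuousAt g x :=
  h.contDiffAt.continuousAt

theorem differentiableAt {g : E → F} {x : E} (h : Sm g x) : DifferentiableAt ℝ g x :=
  h.contDiffAt.differentiableAt (by simp)

theorem eventually {g : E → F} {x : E} (h : Sm g x) : ∀ᶠ y in 𝓝 x, Sm g y :=
  eventually_eventually_nhds.2 h

theorem comp {f : F → G} {g : E → F} {x : E} (hf : Sm f (g x)) (hg : Sm g x) : Sm (f ∘ g) x := by
  filter_upwards [hg, hg.continuousAt.eventually hf] with y h1 h2
  exact h2.comp y h1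

theorem congr {f g : E → F} {x : E} (hf : Sm f x) (h : f =ᶠ[𝓝 x] g) : Sm g x := by
  filter_upwards [hf, h.eventuallyEq_nhds] with y h1 h2
  exact h1.congr_of_eventuallyEq h2.symm

theorem of_contDiff {g : E → F} (h : ContDiff ℝ ∞ g) (x : E) : Sm g x :=
  Eventually.of_forall fun _ => h.contDiffAt

theorem of_contDiffOn {g : E → F} {U : Set E} (h : ContDiffOn ℝ ∞ g U) (hU : IsOpen U) {x : E}
    (hx : x ∈ U) : Sm g x := by
  filter_upwards [hU.mem_nhds hx] with y hy using h.contDiffAt (hU.mem_nhds hy)

theorem prodMk {f : E → F} {g : E → G} {x : E} (hf : Sm f x) (hg : Sm g x) :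
    Sm (fun y => (f y, g y)) x := by
  filter_upwards [hf, hg] with y h1 h2 using h1.prodMk h2

theorem fst {f : E → F × G} {x : E} (hf : Sm f x) : Sm (fun y => (f y).1) x := by
  filter_upwards [hf] with y h1 using h1.fst

theorem snd {f : E → F × G} {x : E} (hf : Sm f x) : Sm (fun y => (f y).2) x := by
  filter_upwards [hf] with y h1 using h1.snd

theorem fderiv {f : E → F} {x : E} (hf : Sm f x) : Sm (fderiv ℝ f) x := by
  filter_upwards [hf] with y h1 using h1.fderiv_right (m := ∞) (by simp)

end Sm

/-- a diffeology, given by germs of plots -/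
structure Dif (X : Type*) where
  /-- `u` is a plot near `x` -/
  At : ∀ {E : Type} [NormedAddCommGroup E] [NormedSpace ℝ E] [FiniteDimensional ℝ E],
    (E → X) → E → Prop
  open' : ∀ {E : Type} [NormedAddCommGroup E] [NormedSpace ℝ E] [FiniteDimensional ℝ E]
    {u : E → X} {x : E}, At u x → ∀ᶠ y in 𝓝 x, At u y
  congr : ∀ {E : Type} [NormedAddCommGroup E] [NormedSpace ℝ E] [FiniteDimensional ℝ E]
    {u v : E → X} {x : E}, At u x → u =ᶠ[𝓝 x] v → At v x
  comp : ∀ {E F : Type} [NormedAddCommGroup E] [NormedSpace ℝ E] [FiniteDimensional ℝ E]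
    [NormedAddCommGroup F] [NormedSpace ℝ F] [FiniteDimensional ℝ F]
    {u : F → X} {g : E → F} {x : E}, At u (g x) → Sm g x → At (u ∘ g) x

/-- smooth maps -/
def Dif.Map {X Y : Type*} (D : Dif X) (D' : Dif Y) (f : X → Y) : Prop :=
  ∀ {E : Type} [NormedAddCommGroup E] [NormedSpace ℝ E] [FiniteDimensional ℝ E]
    {u : E → X} {x : E}, D.At u x → D'.At (f ∘ u) x

/-- differential forms (of mixed degree) on a diffeological space -/
structure Form {X : Type*} (D : Dif X) where
  /-- the form on the source of a plot -/
  val : ∀ {E : Type} [NormedAddCommGroup E] [NormedSpace ℝ E] [FiniteDimensional ℝ E],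
    (E → X) → E → Lam E
  smooth : ∀ {E : Type} [NormedAddCommGroup E] [NormedSpace ℝ E] [FiniteDimensional ℝ E]
    {u : E → X} {x : E}, D.At u x → ContDiffAt ℝ ∞ (val u) x
  nat : ∀ {E F : Type} [NormedAddCommGroup E] [NormedSpace ℝ E] [FiniteDimensional ℝ E]
    [NormedAddCommGroup F] [NormedSpace ℝ F] [FiniteDimensional ℝ F]
    {u : F → X} {g : E → F} {x : E}, D.At u (g x) → Sm g x →
      val (u ∘ g) x = pull (fderiv ℝ g x) (val u (g x))
  congr : ∀ {E : Type} [NormedAddCommGroup E] [NormedSpace ℝ E] [FiniteDimensional ℝ E]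
    {u v : E → X} {x : E}, D.At u x → u =ᶠ[𝓝 x] v → val u x = val v x
  junk : ∀ {E : Type} [NormedAddCommGroup E] [NormedSpace ℝ E] [FiniteDimensional ℝ E]
    {u : E → X} {x : E}, ¬ D.At u x → val u x = 0

namespace Form

variable {X Y Z : Type*} {D : Dif X} {D' : Dif Y} {D'' : Dif Z}

section Basic

variable {E : Type} [NormedAddCommGroup E] [NormedSpace ℝ E] [FiniteDimensional ℝ E]
variable {F : Type} [NormedAddCommGroup F] [NormedSpace ℝ F] [FiniteDimensional ℝ F]

theorem ext_val {a b : Form D} (h : ∀ (E : Type) [NormedAddCommGroup E] [NormedSpace ℝ E]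
    [FiniteDimensional ℝ E] (u : E → X) (x : E), D.At u x → a.val u x = b.val u x) : a = b := by
  have h1 : ∀ (E : Type) [NormedAddCommGroup E] [NormedSpace ℝ E]
      [FiniteDimensional ℝ E] (u : E → X) (x : E), a.val u x = b.val u x := by
    intro E _ _ _ u x
    by_cases hu : D.At u x
    · exact h E u x hu
    · rw [a.junk hu, b.junk hu]
  cases a
  cases b
  congr
  funext E _ _ _ u x
  exact h1 E u x

theorem sm {u : E → X} {x : E} (a : Form D) (h : D.At u x) : Sm (a.val u) x := by
  filter_upwards [D.open' h] with y hy using a.smooth hy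

theorem differentiableAt {u : E → X} {x : E} (a : Form D) (h : D.At u x) :
    DifferentiableAt ℝ (a.val u) x := (a.sm h).differentiableAt

end Basic

open Classical in
/-- construct a form by cutting off the junk values -/
noncomputable def mk' (val : ∀ {E : Type} [NormedAddCommGroup E] [NormedSpace ℝ E]
      [FiniteDimensional ℝ E], (E → X) → E → Lam E)
    (smooth : ∀ {E : Type} [NormedAddCommGroup E] [NormedSpace ℝ E] [FiniteDimensional ℝ E]
      {u : E → X} {x : E}, D.At u x → ContDiffAt ℝ ∞ (val u) x)
    (nat : ∀ {E F : Type} [NormedAddCommGroup E] [NormedSpace ℝ E] [FiniteDimensional ℝ E]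
      [NormedAddCommGroup F] [NormedSpace ℝ F] [FiniteDimensional ℝ F]
      {u : F → X} {g : E → F} {x : E}, D.At u (g x) → Sm g x →
        val (u ∘ g) x = pull (fderiv ℝ g x) (val u (g x)))
    (congr : ∀ {E : Type} [NormedAddCommGroup E] [NormedSpace ℝ E] [FiniteDimensional ℝ E]
      {u v : E → X} {x : E}, D.At u x → u =ᶠ[𝓝 x] v → val u x = val v x) : Form D where
  val u x := if D.At u x then val u x else 0
  smooth := by
    intro E _ _ _ u x h
    refine (smooth h).congr_of_eventuallyEq ?_
    filter_upwards [D.open' h] with y hy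
    rw [if_pos hy]
  nat := by
    intro E F _ _ _ _ _ _ u g x h hg
    rw [if_pos h, if_pos (D.comp h hg), nat h hg]
  congr := by
    intro E _ _ _ u v x h huv
    rw [if_pos h, if_pos (D.congr h huv), congr h huv]
  junk := by
    intro E _ _ _ u x h
    rw [if_neg h]

section Ops

variable {E : Type} [NormedAddCommGroup E] [NormedSpace ℝ E] [FiniteDimensional ℝ E]

noncomputable instance : Zero (Form D) :=
  ⟨⟨fun _ _ => 0, fun _ => contDiffAt_const, fun _ _ => (map_zero _).symm, fun _ _ => rfl,
    fun _ => rfl⟩⟩

noncomputable instance : Add (Form D) :=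
  ⟨fun a b => ⟨fun u x => a.val u x + b.val u x, fun h => (a.smooth h).add (b.smooth h),
    fun h hg => by rw [a.nat h hg, b.nat h hg, map_add],
    fun h hv => by rw [a.congr h hv, b.congr h hv],
    fun h => by rw [a.junk h, b.junk h, add_zero]⟩⟩

noncomputable instance : Neg (Form D) :=
  ⟨fun a => ⟨fun u x => -a.val u x, fun h => (a.smooth h).neg,
    fun h hg => by rw [a.nat h hg, map_neg],
    fun h hv => by rw [a.congr h hv],
    fun h => by rw [a.junk h, neg_zero]⟩⟩

noncomputable instance : Sub (Form D) :=
  ⟨fun a b => ⟨fun u x => a.val u x - b.val u x, fun h => (a.smooth h).sub (b.smooth h),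
    fun h hg => by rw [a.nat h hg, b.nat h hg, map_sub],
    fun h hv => by rw [a.congr h hv, b.congr h hv],
    fun h => by rw [a.junk h, b.junk h, sub_zero]⟩⟩

noncomputable instance : Mul (Form D) :=
  ⟨fun a b => ⟨fun u x => a.val u x * b.val u x, fun h => (a.smooth h).mul (b.smooth h),
    fun h hg => by rw [a.nat h hg, b.nat h hg, map_mul],
    fun h hv => by rw [a.congr h hv, b.congr h hv],
    fun h => by rw [a.junk h, b.junk h, mul_zero]⟩⟩

noncomputable instance : SMul ℝ (Form D) :=
  ⟨fun c a => ⟨fun u x => c • a.val u x, fun h => (a.smooth h).const_smul c,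
    fun h hg => by rw [a.nat h hg, map_smul],
    fun h hv => by rw [a.congr h hv],
    fun h => by rw [a.junk h, smul_zero]⟩⟩

noncomputable instance : One (Form D) :=
  ⟨mk' (fun _ _ => 1) (fun _ => contDiffAt_const) (fun _ _ => (map_one _).symm)
    (fun _ _ => rfl)⟩

theorem zero_val (u : E → X) (x : E) : (0 : Form D).val u x = 0 := rfl
theorem add_val (a b : Form D) (u : E → X) (x : E) : (a + b).val u x = a.val u x + b.val u x := rfl
theorem neg_val (a : Form D) (u : E → X) (x : E) : (-a).val u x = -a.val u x := rfl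
theorem sub_val (a b : Form D) (u : E → X) (x : E) : (a - b).val u x = a.val u x - b.val u x := rfl
theorem mul_val (a b : Form D) (u : E → X) (x : E) : (a * b).val u x = a.val u x * b.val u x := rfl
theorem smul_val (c : ℝ) (a : Form D) (u : E → X) (x : E) : (c • a).val u x = c • a.val u x := rfl

theorem mk'_val {val : ∀ {E : Type} [NormedAddCommGroup E] [NormedSpace ℝ E]
      [FiniteDimensional ℝ E], (E → X) → E → Lam E}
    {h1} {h2} {h3} {u : E → X} {x : E} (h : D.At u x) :
    (mk' (D := D) val h1 h2 h3).val u x = val u x := by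
  classical
  exact if_pos h

theorem one_val {u : E → X} {x : E} (h : D.At u x) : (1 : Form D).val u x = 1 :=
  mk'_val (D := D) h

noncomputable instance : AddCommGroup (Form D) where
  add_assoc a b c := ext_val fun E _ _ _ u x _ => add_assoc _ _ _
  zero_add a := ext_val fun E _ _ _ u x _ => zero_add _
  add_zero a := ext_val fun E _ _ _ u x _ => add_zero _
  add_comm a b := ext_val fun E _ _ _ u x _ => add_comm _ _
  neg_add_cancel a := ext_val fun E _ _ _ u x _ => neg_add_cancel _
  sub_eq_add_neg a b := ext_val fun E _ _ _ u x _ => sub_eq_add_neg _ _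
  nsmul := nsmulRec
  zsmul := zsmulRec

noncomputable instance : Ring (Form D) where
  mul_assoc a b c := ext_val fun E _ _ _ u x _ => mul_assoc _ _ _
  one_mul a := ext_val fun E _ _ _ u x h => by rw [mul_val, one_val h, one_mul]
  mul_one a := ext_val fun E _ _ _ u x h => by rw [mul_val, one_val h, mul_one]
  zero_mul a := ext_val fun E _ _ _ u x _ => zero_mul _
  mul_zero a := ext_val fun E _ _ _ u x _ => mul_zero _
  left_distrib a b c := ext_val fun E _ _ _ u x _ => mul_add _ _ _
  right_distrib a b c := ext_val fun E _ _ _ u x _ => add_mul _ _ _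
  zsmul := zsmulRec
  neg_add_cancel a := neg_add_cancel a
  sub_eq_add_neg a b := sub_eq_add_neg a b

noncomputable instance : Module ℝ (Form D) where
  one_smul a := ext_val fun E _ _ _ u x _ => one_smul _ _
  mul_smul c d a := ext_val fun E _ _ _ u x _ => mul_smul _ _ _
  smul_zero c := ext_val fun E _ _ _ u x _ => smul_zero _
  smul_add c a b := ext_val fun E _ _ _ u x _ => smul_add _ _ _
  add_smul c d a := ext_val fun E _ _ _ u x _ => add_smul _ _ _
  zero_smul a := ext_val fun E _ _ _ u x _ => zero_smul _ _

noncomputable instance : Algebra ℝ (Form D) :=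
  Algebra.ofModule (fun r a b => ext_val fun E _ _ _ u x _ => smul_mul_assoc _ _ _)
    (fun r a b => ext_val fun E _ _ _ u x _ => mul_smul_comm _ _ _)

end Ops

/-! ### exterior derivative -/

/-- the exterior derivative -/
noncomputable def d (a : Form D) : Form D :=
  mk' (fun u x => extd (a.val u) x)
    (fun h => contDiffAt_extd (a.smooth h) (by simp))
    (fun {E F} _ _ _ _ _ _ {u g x} h hg => by
      have h1 : a.val (u ∘ g) =ᶠ[𝓝 x] pb g (a.val u) := by
        filter_upwards [hg.eventually, hg.continuousAt.eventually (D.open' h)] with y h1 h2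
        exact a.nat h2 h1
      rw [extd_congr h1]
      exact extd_pb (hg.contDiffAt.of_le two_le_infty) (a.differentiableAt h))
    (fun {E} _ _ _ {u v x} h huv => by
      refine extd_congr ?_
      filter_upwards [D.open' h, huv.eventuallyEq_nhds] with y h1 h2
      exact a.congr h1 h2)

section

variable {E : Type} [NormedAddCommGroup E] [NormedSpace ℝ E] [FiniteDimensional ℝ E]

theorem d_val (a : Form D) {u : E → X} {x : E} (h : D.At u x) :
    a.d.val u x = extd (a.val u) x := mk'_val (D := D) h

end

theorem d_add (a b : Form D) : (a + b).d = a.d + b.d := ext_val fun E _ _ _ u x h => by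
  rw [d_val _ h, add_val, d_val _ h, d_val _ h]
  exact extd_add (a.differentiableAt h) (b.differentiableAt h)

theorem d_sub (a b : Form D) : (a - b).d = a.d - b.d := ext_val fun E _ _ _ u x h => by
  rw [d_val _ h, sub_val, d_val _ h, d_val _ h]
  exact extd_sub (a.differentiableAt h) (b.differentiableAt h)

theorem d_smul (c : ℝ) (a : Form D) : (c • a).d = c • a.d := ext_val fun E _ _ _ u x h => by
  rw [d_val _ h, smul_val, d_val _ h]
  exact extd_const_smul c (a.differentiableAt h)

theorem d_neg (a : Form D) : (-a).d = -a.d := ext_val fun E _ _ _ u x h => by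
  rw [d_val _ h, neg_val, d_val _ h]
  exact extd_neg

@[simp] theorem d_zero : (0 : Form D).d = 0 := ext_val fun E _ _ _ u x h => by
  rw [d_val _ h]
  exact extd_const 0 x

@[simp] theorem d_one : (1 : Form D).d = 0 := ext_val fun E _ _ _ u x h => by
  rw [d_val _ h, zero_val]
  have : (1 : Form D).val u =ᶠ[𝓝 x] fun _ => 1 := by
    filter_upwards [D.open' h] with y hy using one_val hy
  rw [extd_congr this, extd_const]

@[simp] theorem d_d (a : Form D) : a.d.d = 0 := ext_val fun E _ _ _ u x h => by
  rw [d_val _ h, zero_val]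
  have : a.d.val u =ᶠ[𝓝 x] extd (a.val u) := by
    filter_upwards [D.open' h] with y hy using d_val _ hy
  rw [extd_congr this]
  exact extd_extd ((a.smooth h).of_le two_le_infty)

/-- the exterior derivative as a linear map -/
noncomputable def dL : Form D →ₗ[ℝ] Form D where
  toFun := d
  map_add' := d_add
  map_smul' := d_smul

/-- the grade involution -/
noncomputable def sg (a : Form D) : Form D where
  val u x := inv (a.val u x)
  smooth {E} _ _ _ {u x} h :=
    ((invL (E := E)).contDiff.contDiffAt (x := a.val u x)).comp x (a.smooth h)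
  nat h hg := by rw [a.nat h hg, pull_inv]
  congr h hv := by rw [a.congr h hv]
  junk h := by rw [a.junk h, map_zero]

theorem sg_val {E : Type} [NormedAddCommGroup E] [NormedSpace ℝ E] [FiniteDimensional ℝ E]
    (a : Form D) (u : E → X) (x : E) : a.sg.val u x = inv (a.val u x) := rfl

theorem sg_mul (a b : Form D) : (a * b).sg = a.sg * b.sg :=
  ext_val fun E _ _ _ u x _ => map_mul _ _ _

theorem sg_add (a b : Form D) : (a + b).sg = a.sg + b.sg :=
  ext_val fun E _ _ _ u x _ => map_add _ _ _

theorem sg_neg (a : Form D) : (-a).sg = -a.sg := ext_val fun E _ _ _ u x _ => map_neg _ _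

theorem sg_sub (a b : Form D) : (a - b).sg = a.sg - b.sg :=
  ext_val fun E _ _ _ u x _ => map_sub _ _ _

theorem sg_smul (c : ℝ) (a : Form D) : (c • a).sg = c • a.sg :=
  ext_val fun E _ _ _ u x _ => map_smul _ _ _

@[simp] theorem sg_one : (1 : Form D).sg = 1 := ext_val fun E _ _ _ u x h => by
  rw [sg_val, one_val h, map_one]

@[simp] theorem sg_zero : (0 : Form D).sg = 0 := ext_val fun E _ _ _ u x h => map_zero _

@[simp] theorem sg_sg (a : Form D) : a.sg.sg = a := ext_val fun E _ _ _ u x _ => inv_inv _

theorem sg_pow (a : Form D) (n : ℕ) : (a ^ n).sg = a.sg ^ n := by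
  induction n with
  | zero => simp
  | succ n ih => rw [pow_succ, sg_mul, ih, pow_succ]

theorem d_mul (a b : Form D) : (a * b).d = a.d * b + a.sg * b.d := ext_val fun E _ _ _ u x h => by
  rw [d_val _ h, add_val, mul_val, mul_val, d_val _ h, d_val _ h]
  exact extd_mul (a.differentiableAt h) (b.differentiableAt h)

theorem d_sg (a : Form D) : a.sg.d = -a.d.sg := ext_val fun E _ _ _ u x h => by
  rw [d_val _ h, neg_val, sg_val, d_val _ h]
  exact extd_inv (a.differentiableAt h)

/-- even forms are central -/
theorem mul_comm_of_even {a : Form D} (ha : a.sg = a) (b : Form D) : a * b = b * a :=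
  ext_val fun E _ _ _ u x _ => by
    rw [mul_val, mul_val]
    refine Fm.mul_comm_of_even ?_ _
    rw [← sg_val, ha]

theorem mul_of_odd {a : Form D} (ha : a.sg = -a) (b : Form D) : a * b = b.sg * a :=
  ext_val fun E _ _ _ u x _ => by
    rw [mul_val, mul_val]
    refine Fm.mul_of_odd ?_ _
    rw [← sg_val, ha]
    rfl

/-! ### pullback -/

/-- pullback along a smooth map -/
noncomputable def pull (f : X → Y) (hf : D.Map D' f) (a : Form D') : Form D :=
  mk' (fun u x => a.val (f ∘ u) x)
    (fun h => a.smooth (hf h))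
    (fun h hg => a.nat (hf h) hg)
    (fun h huv => a.congr (hf h) (huv.fun_comp f))

theorem pull_val {E : Type} [NormedAddCommGroup E] [NormedSpace ℝ E] [FiniteDimensional ℝ E]
    {f : X → Y} (hf : D.Map D' f) (a : Form D') {u : E → X} {x : E} (h : D.At u x) :
    (pull f hf a).val u x = a.val (f ∘ u) x := mk'_val (D := D) h

/-- pullback as an algebra homomorphism -/
noncomputable def pullA (f : X → Y) (hf : D.Map D' f) : Form D' →ₐ[ℝ] Form D :=
  AlgHom.ofLinearMap
    { toFun := pull f hf
      map_add' := fun a b => ext_val fun E _ _ _ u x h => by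
        rw [pull_val hf _ h, add_val, add_val, pull_val hf _ h, pull_val hf _ h]
      map_smul' := fun c a => ext_val fun E _ _ _ u x h => by
        rw [pull_val hf _ h, smul_val, RingHom.id_apply, smul_val, pull_val hf _ h] }
    (ext_val fun E _ _ _ u x h => by
      change (pull f hf 1).val u x = _
      rw [pull_val hf _ h, one_val h, one_val (hf h)])
    (fun a b => ext_val fun E _ _ _ u x h => by
      change (pull f hf (a * b)).val u x = (pull f hf a * pull f hf b).val u x
      rw [pull_val hf _ h, mul_val, mul_val, pull_val hf _ h, pull_val hf _ h])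

@[simp] theorem pullA_apply (f : X → Y) (hf : D.Map D' f) (a : Form D') :
    pullA f hf a = pull f hf a := rfl

theorem pull_d (f : X → Y) (hf : D.Map D' f) (a : Form D') :
    pull f hf a.d = (pull f hf a).d := ext_val fun E _ _ _ u x h => by
  rw [pull_val hf _ h, d_val _ h, d_val _ (hf h)]
  refine extd_congr ?_
  filter_upwards [D.open' h] with y hy using (pull_val hf _ hy).symm

theorem pull_sg (f : X → Y) (hf : D.Map D' f) (a : Form D') :
    pull f hf a.sg = (pull f hf a).sg := ext_val fun E _ _ _ u x h => by
  rw [pull_val hf _ h, sg_val, sg_val, pull_val hf _ h]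

theorem pull_comp {f : X → Y} {g : Y → Z} (hf : D.Map D' f) (hg : D'.Map D'' g)
    (hgf : D.Map D'' (g ∘ f)) (a : Form D'') :
    pull (g ∘ f) hgf a = pull f hf (pull g hg a) := ext_val fun E _ _ _ u x h => by
  rw [pull_val hgf _ h, pull_val hf _ h, pull_val hg _ (hf h)]
  rfl

theorem pull_id (hf : D.Map D id) (a : Form D) : pull id hf a = a :=
  ext_val fun E _ _ _ u x h => by
    rw [pull_val hf _ h]
    rfl

theorem pull_congr {f g : X → Y} (hf : D.Map D' f) (hg : D.Map D' g) (h : f = g) (a : Form D') :
    pull f hf a = pull g hg a := by subst h; rfl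

end Form

end Vale.Agent.P231.Fm
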