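import Vale.Agent.P231.Fm.Degree
import Vale.Agent.P231.Q.Base

/-!
# P231, forms: the degree of a map of a sphere into itself

Integrals over the unit sphere of `E` are written `∫ evalForm (dR r x * σ x) b` with a cutoff
function `r` (`= 0` near `0` and `= 1` outside a compact set).
-/

set_option linter.unusedSectionVars false

open Module MeasureTheory Set Metric
open scoped ContDiff Topology

namespace Vale.Agent.P231.Fm

open Q (dR Cut)

section Gen

variable {E : Type*} [NormedAddCommGroup E] [NormedSpace ℝ E] [FiniteDimensional ℝ E]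
  [MeasurableSpace E] [BorelSpace E]

/-- the integral of a closed form over the sphere does not depend on the cutoff -/
theorem cut_indep (μ : Measure E) [μ.IsAddHaarMeasure] {n : ℕ} (b : Fin n → E) {σ : E → Lam E}
    (hσ : ContDiffOn ℝ ∞ σ {0}ᶜ) (hcl : ∀ y ≠ 0, evalForm (extd σ y) b = 0)
    {r r' : E → ℝ} {K K' : Set E} (hr : Cut r K) (hr' : Cut r' K') :
    ∫ y, evalForm (dR r y * σ y) b ∂μ = ∫ y, evalForm (dR r' y * σ y) b ∂μ := by
  have hint : ∀ {r : E → ℝ} {K : Set E}, Cut r K →
      Integrable (fun y => evalForm (dR r y * σ y) b) μ := by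
    intro r K hr
    have hc : Continuous fun y => dR r y * σ y := by
      refine continuous_iff_continuousAt.2 fun y => ?_
      rcases eq_or_ne y 0 with rfl | hy
      · have h1 : (fun y => dR r y * σ y) =ᶠ[𝓝 (0 : E)] fun _ => 0 := by
          filter_upwards [hr.dR_near] with z hz
          rw [hz, zero_mul]
        exact (continuousAt_const (y := (0 : Lam E))).congr h1.symm
      · exact ((Q.contDiff_dR hr.smooth).contDiffAt.mul
          (hσ.contDiffAt (isOpen_compl_singleton.mem_nhds hy))).continuousAt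
    refine Continuous.integrable_of_hasCompactSupport ((evalL b).continuous.comp hc) ?_
    refine HasCompactSupport.intro hr.compact fun y hy => ?_
    change evalL b (dR r y * σ y) = 0
    rw [hr.dR_out hy, zero_mul, map_zero]
  let g : E → ℝ := fun y => r y - r' y
  have hg : ContDiff ℝ ∞ g := hr.smooth.sub hr'.smooth
  have hg0 : ∀ᶠ y in 𝓝 (0 : E), g y = 0 := by
    filter_upwards [hr.zero, hr'.zero] with y h1 h2
    simp [g, h1, h2]
  have hg1 : ∀ y ∉ K ∪ K', g y = 0 := by
    intro y hy
    rw [mem_union, not_or] at hy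
    simp [g, hr.one y hy.1, hr'.one y hy.2]
  let w : E → Lam E := fun y => g y • σ y
  have hw0 : w =ᶠ[𝓝 (0 : E)] fun _ => 0 := by
    filter_upwards [hg0] with y hy
    simp [w, hy]
  have hw : ContDiff ℝ 1 w := by
    refine contDiff_iff_contDiffAt.2 fun y => ?_
    rcases eq_or_ne y 0 with rfl | hy
    · exact contDiffAt_const.congr_of_eventuallyEq hw0
    · exact (hg.contDiffAt.smul (hσ.contDiffAt (isOpen_compl_singleton.mem_nhds hy))).of_le
        (by simp)
  have hc : HasCompactSupport w := HasCompactSupport.intro (hr.compact.union hr'.compact)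
    fun y hy => by simp [w, hg1 y hy]
  have h1 := integral_evalForm_extd μ b hw hc
  have h2 : ∀ y, evalForm (extd w y) b =
      evalForm (dR r y * σ y) b - evalForm (dR r' y * σ y) b := by
    intro y
    rcases eq_or_ne y 0 with rfl | hy
    · rw [extd_congr hw0, extd_const, hr.dR_near.self_of_nhds, hr'.dR_near.self_of_nhds,
        zero_mul, Q.evalForm_zero, sub_zero]
    · have h3 : extd w y = dx (fderiv ℝ g y) * σ y + g y • extd σ y :=
        extd_smul (hg.differentiable (by simp) y)
          ((hσ.contDiffAt (isOpen_compl_singleton.mem_nhds hy)).differentiableAt (by simp))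
      have h4 : fderiv ℝ g y = fderiv ℝ r y - fderiv ℝ r' y :=
        fderiv_fun_sub (hr.smooth.differentiable (by simp) y)
          (hr'.smooth.differentiable (by simp) y)
      rw [h3, h4, map_sub, sub_mul, Q.evalForm_add, Q.evalForm_sub, Q.evalForm_smul, hcl y hy,
        mul_zero, add_zero]
      rfl
  simp only [h2] at h1
  rw [integral_sub (hint hr) (hint hr'), sub_eq_zero] at h1
  exact h1

end Gen

variable {E : Type*} [NormedAddCommGroup E] [InnerProductSpace ℝ E] [FiniteDimensional ℝ E]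
  [MeasurableSpace E] [BorelSpace E]

/-- radial projection onto the unit sphere -/
noncomputable def rad (x : E) : E := ‖x‖⁻¹ • x

/-- a standard cutoff -/
noncomputable def rst (x : E) : ℝ := Real.smoothTransition (‖x‖ - 2)

theorem contDiff_rst : ContDiff ℝ ∞ (rst : E → ℝ) := by
  refine contDiff_iff_contDiffAt.2 fun x => ?_
  rcases eq_or_ne x 0 with rfl | hx
  · have h : (rst : E → ℝ) =ᶠ[𝓝 0] fun _ => 0 := by
      filter_upwards [ball_mem_nhds (0 : E) one_pos] with y hy
      rw [mem_ball_zero_iff] at hy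
      exact Real.smoothTransition.zero_of_nonpos (by linarith)
    exact contDiffAt_const.congr_of_eventuallyEq h
  · exact Real.smoothTransition.contDiff.contDiffAt.comp x
      ((contDiffAt_norm ℝ hx).sub contDiffAt_const)

theorem rst_zero {x : E} (hx : ‖x‖ < 2) : rst =ᶠ[𝓝 x] fun _ => 0 := by
  filter_upwards [(isOpen_lt continuous_norm continuous_const).mem_nhds hx] with y hy
  exact Real.smoothTransition.zero_of_nonpos (sub_nonpos.2 (le_of_lt hy))

theorem cut_rst : Cut (rst : E → ℝ) (closedBall 0 3) where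
  smooth := contDiff_rst
  compact := isCompact_closedBall _ _
  one y hy := by
    rw [mem_closedBall_zero_iff, not_le] at hy
    exact Real.smoothTransition.one_of_one_le (by linarith)
  zero := rst_zero (by simp)

theorem dR_rst_zero {x : E} (hx : ‖x‖ < 2) : dR rst x = 0 := by
  rw [dR, (rst_zero hx).fderiv_eq]
  simp

/-- smooth maps of the unit sphere, extended homogeneously -/
structure SphMap (f : E → E) : Prop where
  smooth : ContDiffOn ℝ ∞ f {0}ᶜ
  norm : ∀ x ≠ 0, ‖f x‖ = 1
  hom : ∀ x ≠ 0, ∀ c : ℝ, 0 < c → f (c • x) = f x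

theorem contDiffAt_rad {x : E} (hx : x ≠ 0) : ContDiffAt ℝ ∞ (rad : E → E) x :=
  ((contDiffAt_norm ℝ hx).inv (norm_ne_zero_iff.2 hx)).smul contDiffAt_id

theorem norm_rad {x : E} (hx : x ≠ 0) : ‖rad x‖ = 1 := by
  rw [rad, norm_smul, norm_inv, norm_norm, inv_mul_cancel₀ (norm_ne_zero_iff.2 hx)]

theorem rad_smul (x : E) {c : ℝ} (hc : 0 < c) : rad (c • x) = rad x := by
  rw [rad, rad, norm_smul, Real.norm_eq_abs, abs_of_pos hc, smul_smul, mul_inv, mul_comm c⁻¹,
    mul_assoc, inv_mul_cancel₀ hc.ne', mul_one]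

theorem sphMap_rad : SphMap (rad : E → E) where
  smooth _ hx := (contDiffAt_rad hx).contDiffWithinAt
  norm _ hx := norm_rad hx
  hom _ _ _ hc := rad_smul _ hc

variable {f : E → E}

theorem SphMap.at (h : SphMap f) {x : E} (hx : x ≠ 0) : ContDiffAt ℝ ∞ f x :=
  h.smooth.contDiffAt (isOpen_compl_singleton.mem_nhds hx)

/-- the derivative kills the radial direction -/
theorem SphMap.fderiv_self (h : SphMap f) {x : E} (hx : x ≠ 0) : fderiv ℝ f x x = 0 := by
  have h1 : HasFDerivAt f (fderiv ℝ f x) ((1 : ℝ) • x) := by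
    rw [one_smul]
    exact ((h.at hx).differentiableAt (by simp)).hasFDerivAt
  have h2 : HasDerivAt (fun t : ℝ => t • x) ((1 : ℝ) • x) 1 := (hasDerivAt_id (1 : ℝ)).smul_const x
  have h3 := h1.comp_hasDerivAt (1 : ℝ) h2
  have h4 : (f ∘ fun t : ℝ => t • x) =ᶠ[𝓝 (1 : ℝ)] fun _ => f x := by
    filter_upwards [lt_mem_nhds one_pos] with t ht using h.hom x hx t ht
  have h5 := (h3.congr_of_eventuallyEq h4.symm).unique (hasDerivAt_const (1 : ℝ) (f x))
  rwa [one_smul] at h5

theorem SphMap.eval_extd (h : SphMap f) {n : ℕ} (b : Basis (Fin n) ℝ E) {w : E → Lam E}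
    (hw : ContDiffOn ℝ ∞ w {0}ᶜ) {x : E} (hx : x ≠ 0) :
    evalForm (extd (pb f w) x) b = 0 := by
  have hfx : f x ≠ 0 := fun h0 => by
    have := h.norm x hx
    rw [h0, norm_zero] at this
    exact zero_ne_one this
  refine Q.evalForm_eq_zero_of_iprod b hx ?_
  rw [extd_pb ((h.at hx).of_le two_le_inf)
    ((hw.contDiffAt (isOpen_compl_singleton.mem_nhds hfx)).differentiableAt (by simp)), pb,
    pull_iprod, h.fderiv_self hx, Q.iprod_zero_left, map_zero]

theorem SphMap.contDiffOn_pb (h : SphMap f) {w : E → Lam E}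
    (hw : ContDiffOn ℝ ∞ w {0}ᶜ) : ContDiffOn ℝ ∞ (pb f w) {0}ᶜ := by
  intro x hx
  have hfx : f x ≠ 0 := fun h0 => by
    have := h.norm x hx
    rw [h0, norm_zero] at this
    exact zero_ne_one this
  exact (contDiffAt_pb (h.at hx) (hw.contDiffAt (isOpen_compl_singleton.mem_nhds hfx))
    (by simp)).contDiffWithinAt

theorem SphMap.indep (h : SphMap f) (μ : Measure E) [μ.IsAddHaarMeasure] {n : ℕ}
    (b : Basis (Fin n) ℝ E) {w : E → Lam E} (hw : ContDiffOn ℝ ∞ w {0}ᶜ)
    {r r' : E → ℝ} {K K' : Set E} (hr : Cut r K) (hr' : Cut r' K') :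
    ∫ x, evalForm (dR r x * pb f w x) b ∂μ = ∫ x, evalForm (dR r' x * pb f w x) b ∂μ :=
  cut_indep μ b (h.contDiffOn_pb hw) (fun _ hy => h.eval_extd b hw hy) hr hr'

theorem pb_dR {F : E → E} {r : E → ℝ} {x : E} (hF : DifferentiableAt ℝ F x)
    (hr : DifferentiableAt ℝ r (F x)) : pb F (dR r) x = dR (r ∘ F) x := by
  rw [pb, dR, pull_dx, dR, fderiv_comp x hr hF]

/-- **the degree of a smooth map of the sphere** -/
theorem SphMap.exists_degree (h : SphMap f) (μ : Measure E) [μ.IsAddHaarMeasure] {n : ℕ}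
    (b : Basis (Fin n) ℝ E) : ∃ k : ℤ, ∀ w : E → Lam E, ContDiffOn ℝ ∞ w {0}ᶜ →
      ∀ (r : E → ℝ) (K : Set E), Cut r K →
        ∫ x, evalForm (dR r x * pb f w x) b ∂μ = k * ∫ x, evalForm (dR r x * pb rad w x) b ∂μ := by
  let ρ : E → ℝ := fun x => Real.smoothTransition (2 * ‖x‖ - 1) * ‖x‖
  let F : E → E := fun x => ρ x • f x
  have hρ0 : ∀ x : E, ‖x‖ < 1 / 2 → ρ x = 0 := fun x hx => by
    simp only [ρ]
    rw [Real.smoothTransition.zero_of_nonpos (by linarith), zero_mul]
  have hρ1 : ∀ x : E, 1 ≤ ‖x‖ → ρ x = ‖x‖ := fun x hx => by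
    simp only [ρ]
    rw [Real.smoothTransition.one_of_one_le (by linarith), one_mul]
  have hρn : ∀ x : E, 0 ≤ ρ x := fun x =>
    mul_nonneg (Real.smoothTransition.nonneg _) (norm_nonneg _)
  have hρl : ∀ x : E, ρ x ≤ ‖x‖ := fun x =>
    mul_le_of_le_one_left (norm_nonneg _) (Real.smoothTransition.le_one _)
  have hF0 : F =ᶠ[𝓝 (0 : E)] fun _ => 0 := by
    filter_upwards [ball_mem_nhds (0 : E) (half_pos one_pos)] with y hy
    rw [mem_ball_zero_iff] at hy
    simp only [F, hρ0 y hy, zero_smul]
  have hF : ContDiff ℝ ∞ F := by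
    refine contDiff_iff_contDiffAt.2 fun x => ?_
    rcases eq_or_ne x 0 with rfl | hx
    · exact contDiffAt_const.congr_of_eventuallyEq hF0
    · refine ContDiffAt.smul (ContDiffAt.mul ?_ (contDiffAt_norm ℝ hx)) (h.at hx)
      exact Real.smoothTransition.contDiff.contDiffAt.comp x
        ((contDiffAt_const.mul (contDiffAt_norm ℝ hx)).sub contDiffAt_const)
  have hFn : ∀ x : E, 1 ≤ ‖x‖ → ‖F x‖ = ‖x‖ := fun x hx => by
    have hx0 : x ≠ 0 := fun h0 => by rw [h0, norm_zero] at hx; linarith
    simp only [F]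
    rw [norm_smul, h.norm x hx0, mul_one, Real.norm_eq_abs, abs_of_nonneg (hρn x), hρ1 x hx]
  have hFl : ∀ x : E, ‖F x‖ ≤ ‖x‖ := fun x => by
    rcases eq_or_ne x 0 with rfl | hx
    · rw [hF0.self_of_nhds, norm_zero]
    · simp only [F]
      rw [norm_smul, h.norm x hx, mul_one, Real.norm_eq_abs, abs_of_nonneg (hρn x)]
      exact hρl x
  obtain ⟨k, hk⟩ := exists_int_degree_form μ b isOpen_univ isOpen_univ convex_univ
    (hF.contDiffOn (s := univ)) (fun K _ hK => by
      obtain ⟨M, hM0, hM⟩ := hK.isBounded.subset_closedBall_lt 1 0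
      refine (isCompact_closedBall (0 : E) M).of_isClosed_subset ?_ ?_
      · simp only [mem_univ, true_and]
        exact hK.isClosed.preimage hF.continuous
      · rintro x ⟨-, hx⟩
        have h1 := hM hx
        rw [mem_closedBall_zero_iff] at h1 ⊢
        by_contra h2
        rw [not_le] at h2
        rw [hFn x (hM0.trans h2).le] at h1
        linarith)
  refine ⟨k, fun w hw r K hr => ?_⟩
  rw [h.indep μ b hw hr cut_rst, sphMap_rad.indep μ b hw hr cut_rst]
  let W : E → Lam E := fun y => dR rst y * pb rad w y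
  have hW : ContDiff ℝ ∞ W := by
    refine contDiff_iff_contDiffAt.2 fun x => ?_
    rcases eq_or_ne x 0 with rfl | hx
    · have h0 : W =ᶠ[𝓝 (0 : E)] fun _ => 0 := by
        filter_upwards [cut_rst.dR_near] with y hy
        simp only [W, hy, zero_mul]
      exact (contDiffAt_const (c := (0 : Lam E))).congr_of_eventuallyEq h0
    · exact (Q.contDiff_dR (F := E) contDiff_rst).contDiffAt.mul
        ((sphMap_rad.contDiffOn_pb hw).contDiffAt (isOpen_compl_singleton.mem_nhds hx))
  have hWc : HasCompactSupport W := HasCompactSupport.intro (isCompact_closedBall (0 : E) 3)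
    fun y hy => by simp only [W, cut_rst.dR_out hy, zero_mul]
  have h1 := hk W hW hWc (subset_univ _)
  rw [Measure.restrict_univ] at h1
  rw [← h1]
  refine integral_congr_ae (Filter.Eventually.of_forall fun x => ?_)
  change evalForm (dR rst x * pb f w x) b = evalForm (pb F W x) b
  congr 2
  rcases le_or_gt ‖x‖ 1 with hx | hx
  · rw [dR_rst_zero (by linarith), zero_mul, pb]
    simp only [W]
    rw [dR_rst_zero (by linarith [hFl x]), zero_mul, map_zero]
  · have hx0 : x ≠ 0 := fun h0 => by rw [h0, norm_zero] at hx; linarith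
    have hFx0 : F x ≠ 0 := fun h0 => by
      have := hFn x hx.le
      rw [h0, norm_zero] at this
      linarith
    have hev : ∀ᶠ y in 𝓝 x, 1 < ‖y‖ := (isOpen_lt continuous_const continuous_norm).mem_nhds hx
    have e1 : rst ∘ F =ᶠ[𝓝 x] rst := by
      filter_upwards [hev] with y hy
      simp only [Function.comp_apply, rst]
      rw [hFn y hy.le]
    have e2 : (fun y => rad (F y)) =ᶠ[𝓝 x] f := by
      filter_upwards [hev] with y hy
      have hy0 : y ≠ 0 := fun h0 => by rw [h0, norm_zero] at hy; linarith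
      simp only [F]
      rw [rad_smul _ (by rw [hρ1 y hy.le]; linarith), rad, h.norm y hy0, inv_one, one_smul]
    have hFd : DifferentiableAt ℝ F x := hF.differentiable (by simp) x
    change _ = pb F (fun y => dR rst y * pb rad w y) x
    rw [pb_mul, pb_dR hFd (contDiff_rst.differentiable (by simp) _), dR, dR, e1.fderiv_eq]
    congr 1
    rw [← pb_congr w e2]
    exact pb_comp w ((contDiffAt_rad hFx0).differentiableAt (by simp)) hFd

end Vale.Agent.P231.Fm
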