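import Vale.Agent.P231.Fm.Dif

/-!
# P231, forms layer: constructions of diffeological spaces, the homotopy operator
-/

set_option linter.unusedSectionVars false
set_option linter.unusedVariables false

open MeasureTheory Set Module Filter Topology
open scoped ContDiff Manifold

namespace Vale.Agent.P231.Fm

/-! ### constructions -/

/-- the standard diffeology of a normed space -/
def Dif.lin (V : Type*) [NormedAddCommGroup V] [NormedSpace ℝ V] : Dif V where
  At u x := Sm u x
  open' h := h.eventually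
  congr h hv := h.congr hv
  comp h hg := h.comp hg

/-- the product -/
def Dif.prod {X Y : Type*} (D : Dif X) (D' : Dif Y) : Dif (X × Y) where
  At u x := D.At (fun y => (u y).1) x ∧ D'.At (fun y => (u y).2) x
  open' h := (D.open' h.1).and (D'.open' h.2)
  congr h hv := ⟨D.congr h.1 (hv.fun_comp Prod.fst), D'.congr h.2 (hv.fun_comp Prod.snd)⟩
  comp h hg := ⟨D.comp h.1 hg, D'.comp h.2 hg⟩

/-- the diffeology induced by a map -/
def Dif.ind {X Y : Type*} (D : Dif Y) (f : X → Y) : Dif X where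
  At u x := D.At (f ∘ u) x
  open' h := D.open' h
  congr h hv := D.congr h (hv.fun_comp f)
  comp h hg := D.comp h hg

/-- the diffeology of a subset -/
def Dif.sub {X : Type*} (D : Dif X) (S : Set X) : Dif S := D.ind Subtype.val

/-- the quotient diffeology -/
def Dif.quot {X Q : Type*} (D : Dif X) (q : X → Q) : Dif Q where
  At {E} _ _ _ u x := ∃ v : E → X, q ∘ v =ᶠ[𝓝 x] u ∧ D.At v x
  open' := by
    rintro E _ _ _ u x ⟨v, h1, h2⟩
    filter_upwards [h1.eventuallyEq_nhds, D.open' h2] with y h3 h4 using ⟨v, h3, h4⟩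
  congr := by
    rintro E _ _ _ u u' x ⟨v, h1, h2⟩ h
    exact ⟨v, h1.trans h, h2⟩
  comp := by
    rintro E F _ _ _ _ _ _ u g x ⟨v, h1, h2⟩ hg
    exact ⟨v ∘ g, hg.continuousAt.eventually h1, D.comp h2 hg⟩

/-- the diffeology of a manifold -/
def Dif.mfd {E₀ : Type*} [NormedAddCommGroup E₀] [NormedSpace ℝ E₀] {H : Type*}
    [TopologicalSpace H] (I : ModelWithCorners ℝ E₀ H) (M : Type*) [TopologicalSpace M]
    [ChartedSpace H M] : Dif M where
  At {E} _ _ _ u x := ∀ᶠ y in 𝓝 x, ContMDiffAt 𝓘(ℝ, E) I ∞ u y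
  open' h := eventually_eventually_nhds.2 h
  congr {E} _ _ _ u v x h hv := by
    filter_upwards [h, hv.eventuallyEq_nhds] with y h1 h2
    exact h1.congr_of_eventuallyEq h2.symm
  comp {E F} _ _ _ _ _ _ u g x h hg := by
    filter_upwards [hg, hg.continuousAt.eventually h] with y h1 h2
    exact ContMDiffAt.comp y h2 h1.contMDiffAt

section Maps

variable {X Y Z : Type*} {D : Dif X} {D' : Dif Y} {D'' : Dif Z}

theorem Dif.Map.comp {f : X → Y} {g : Y → Z} (hg : D'.Map D'' g) (hf : D.Map D' f) :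
    D.Map D'' (g ∘ f) := fun h => hg (hf h)

theorem Dif.map_id : D.Map D id := fun h => h

theorem Dif.map_fst : (D.prod D').Map D Prod.fst := fun h => h.1

theorem Dif.map_snd : (D.prod D').Map D' Prod.snd := fun h => h.2

theorem Dif.Map.prodMk {f : X → Y} {g : X → Z} (hf : D.Map D' f) (hg : D.Map D'' g) :
    D.Map (D'.prod D'') (fun x => (f x, g x)) := fun h => ⟨hf h, hg h⟩

theorem Dif.map_lin {V W : Type*} [NormedAddCommGroup V] [NormedSpace ℝ V]
    [NormedAddCommGroup W] [NormedSpace ℝ W] {f : V → W} (hf : ContDiff ℝ ∞ f) :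
    (Dif.lin V).Map (Dif.lin W) f := fun {E} _ _ _ {u x} h =>
  (Sm.of_contDiff hf (u x)).comp h

/-- constants are plots -/
theorem Dif.At_const {E : Type} [NormedAddCommGroup E] [NormedSpace ℝ E] [FiniteDimensional ℝ E]
    {F : Type} [NormedAddCommGroup F] [NormedSpace ℝ F] [FiniteDimensional ℝ F]
    {u : E → X} {x : E} (h : D.At u x) (y : F) : D.At (fun _ : F => u x) y := by
  have : D.At (u ∘ fun _ : F => x) y := D.comp (x := y) (g := fun _ : F => x) h
    (Sm.of_contDiff contDiff_const y)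
  exact this

theorem Dif.map_ind {f : X → Y} : (D'.ind f).Map D' f := fun h => h

theorem Dif.map_sub {S : Set X} : (D.sub S).Map D Subtype.val := fun h => h

theorem Dif.map_to_sub {S : Set Y} {f : X → S} (hf : D.Map D' (fun x => (f x : Y))) :
    D.Map (D'.sub S) f := fun h => hf h

theorem Dif.map_quot {Q : Type*} {q : X → Q} : D.Map (D.quot q) q :=
  fun {E} _ _ _ {u x} h => ⟨u, EventuallyEq.rfl, h⟩

theorem Dif.map_from_quot {Q : Type*} {q : X → Q} {f : Q → Y} (hf : D.Map D' (f ∘ q)) :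
    (D.quot q).Map D' f := by
  rintro E _ _ _ u x ⟨v, h1, h2⟩
  exact D'.congr (hf h2) (h1.fun_comp f)

theorem Dif.map_mfd {E₀ : Type*} [NormedAddCommGroup E₀] [NormedSpace ℝ E₀] {H : Type*}
    [TopologicalSpace H] {I : ModelWithCorners ℝ E₀ H} {M : Type*} [TopologicalSpace M]
    [ChartedSpace H M] {E₁ : Type*} [NormedAddCommGroup E₁] [NormedSpace ℝ E₁] {H' : Type*}
    [TopologicalSpace H'] {I' : ModelWithCorners ℝ E₁ H'} {N : Type*} [TopologicalSpace N]
    [ChartedSpace H' N] {f : M → N} (hf : ContMDiff I I' ∞ f) :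
    (Dif.mfd I M).Map (Dif.mfd I' N) f := by
  intro E _ _ _ u x h
  filter_upwards [h] with y hy
  exact (hf.contMDiffAt).comp y hy

theorem Dif.map_mfd_lin {E₀ : Type*} [NormedAddCommGroup E₀] [NormedSpace ℝ E₀] {H : Type*}
    [TopologicalSpace H] {I : ModelWithCorners ℝ E₀ H} {M : Type*} [TopologicalSpace M]
    [ChartedSpace H M] {V : Type*} [NormedAddCommGroup V] [NormedSpace ℝ V] {f : M → V}
    (hf : ContMDiff I 𝓘(ℝ, V) ∞ f) : (Dif.mfd I M).Map (Dif.lin V) f := by
  intro E _ _ _ u x h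
  filter_upwards [h] with y hy
  exact ((hf.contMDiffAt).comp y hy).contDiffAt

end Maps

namespace Form

variable {X Y Z : Type*} {D : Dif X} {D' : Dif Y} {D'' : Dif Z}

/-! ### forms from linear spaces and functions -/

section Lin

variable {V : Type*} [NormedAddCommGroup V] [NormedSpace ℝ V] [FiniteDimensional ℝ V]

/-- a smooth form on a finite-dimensional vector space -/
noncomputable def ofLin (w : V → Lam V) (hw : ContDiff ℝ ∞ w) : Form (Dif.lin V) :=
  mk' (fun u x => pb u w x)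
    (fun {E} _ _ _ {u x} h => contDiffAt_pb (m := ∞) (n := ∞) h.contDiffAt hw.contDiffAt
      (by simp))
    (fun {E F} _ _ _ _ _ _ {u g x} h hg =>
      pb_comp (f := g) (g := u) w h.differentiableAt hg.differentiableAt)
    (fun {E} _ _ _ {u v x} h huv => pb_congr w huv)

theorem ofLin_val {E : Type} [NormedAddCommGroup E] [NormedSpace ℝ E] [FiniteDimensional ℝ E]
    (w : V → Lam V) (hw : ContDiff ℝ ∞ w) {u : E → V} {x : E} (h : Sm u x) :
    (ofLin w hw).val u x = pb u w x := mk'_val (D := Dif.lin V) h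

theorem contDiff_extd {w : V → Lam V} (hw : ContDiff ℝ ∞ w) : ContDiff ℝ ∞ (extd w) :=
  contDiff_iff_contDiffAt.2 fun x => contDiffAt_extd hw.contDiffAt (by simp)

theorem d_ofLin (w : V → Lam V) (hw : ContDiff ℝ ∞ w) :
    (ofLin w hw).d = ofLin (extd w) (contDiff_extd hw) := ext_val fun E _ _ _ u x h => by
  rw [d_val _ h, ofLin_val _ _ h, ← extd_pb (h.contDiffAt.of_le two_le_infty)
    ((hw.differentiable (by simp)) _)]
  refine extd_congr ?_
  filter_upwards [h.eventually] with y hy using ofLin_val _ _ hy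

end Lin

/-- a smooth function as a form -/
noncomputable def fn (f : X → ℝ) (hf : D.Map (Dif.lin ℝ) f) : Form D :=
  mk' (fun {E} _ _ _ u x => algebraMap ℝ (Lam E) (f (u x)))
    (fun {E} _ _ _ {u x} h => by
      have h0 : Sm (f ∘ u) x := hf h
      have h1 : ContDiffAt ℝ ∞ (f ∘ u) x := h0.contDiffAt
      have h2 : (fun y => algebraMap ℝ (Lam E) (f (u y))) = fun y => (f ∘ u) y • (1 : Lam E) := by
        funext y
        rw [Algebra.algebraMap_eq_smul_one]
        rfl
      rw [h2]
      have h3 : ContDiffAt ℝ ∞ (fun _ : E => (1 : Lam E)) x := contDiffAt_const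
      exact h1.smul h3)
    (fun {E F} _ _ _ _ _ _ {u g x} h hg =>
      ((Fm.pull (fderiv ℝ g x)).commutes (f (u (g x)))).symm)
    (fun {E} _ _ _ {u v x} h huv =>
      congrArg (fun y => algebraMap ℝ (Lam E) (f y)) huv.eq_of_nhds)

theorem fn_val {E : Type} [NormedAddCommGroup E] [NormedSpace ℝ E] [FiniteDimensional ℝ E]
    (f : X → ℝ) (hf : D.Map (Dif.lin ℝ) f) {u : E → X} {x : E} (h : D.At u x) :
    (fn f hf).val u x = algebraMap ℝ (Lam E) (f (u x)) := mk'_val (D := D) h

theorem sg_fn (f : X → ℝ) (hf : D.Map (Dif.lin ℝ) f) : (fn f hf).sg = fn f hf :=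
  ext_val fun E _ _ _ u x h => by rw [sg_val, fn_val f hf h, AlgHom.commutes]

/-! ### the homotopy operator -/

/-- the plot `(x, t) ↦ (u x, t)` -/
def cyl {E : Type} (u : E → X) (p : E × ℝ) : X × ℝ := (u p.1, p.2)

theorem cyl_at {E : Type} [NormedAddCommGroup E] [NormedSpace ℝ E] [FiniteDimensional ℝ E]
    {u : E → X} {x : E} (h : D.At u x) (t : ℝ) : (D.prod (Dif.lin ℝ)).At (cyl u) (x, t) := by
  refine ⟨?_, Sm.of_contDiff contDiff_snd _⟩
  exact D.comp (u := u) (g := Prod.fst) (x := ((x, t) : E × ℝ)) h (Sm.of_contDiff contDiff_fst _)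

/-- a form on a cylinder, in a plot, is smooth on a product neighbourhood -/
theorem cyl_smooth {E : Type} [NormedAddCommGroup E] [NormedSpace ℝ E] [FiniteDimensional ℝ E]
    (w : Form (D.prod (Dif.lin ℝ))) {u : E → X} {x : E} (h : D.At u x) :
    ∃ U : Set E, IsOpen U ∧ x ∈ U ∧ (∀ y ∈ U, D.At u y) ∧
      ContDiffOn ℝ ∞ (w.val (cyl u)) (U ×ˢ univ) := by
  obtain ⟨U, hU1, hU2, hU3⟩ := eventually_nhds_iff.1 (D.open' h)
  exact ⟨U, hU2, hU3, hU1, fun p hp => (w.smooth (cyl_at (hU1 _ hp.1) p.2)).contDiffWithinAt⟩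

/-- naturality in the cylinder direction -/
theorem cyl_nat {E F : Type} [NormedAddCommGroup E] [NormedSpace ℝ E] [FiniteDimensional ℝ E]
    [NormedAddCommGroup F] [NormedSpace ℝ F] [FiniteDimensional ℝ F]
    (w : Form (D.prod (Dif.lin ℝ))) {u : F → X} {g : E → F} {x : E} (h : D.At u (g x))
    (hg : Sm g x) (t : ℝ) : w.val (cyl (u ∘ g)) (x, t) =
      Fm.pull ((fderiv ℝ g x).prodMap (ContinuousLinearMap.id ℝ ℝ))
        (w.val (cyl u) (g x, t)) := by
  have h1 : cyl (u ∘ g) = cyl u ∘ fun p : E × ℝ => (g p.1, p.2) := rfl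
  have h2 : Sm (fun p : E × ℝ => (g p.1, p.2)) (x, t) := by
    refine Sm.prodMk ?_ (Sm.of_contDiff contDiff_snd _)
    exact Sm.comp (f := g) (g := Prod.fst) (x := ((x, t) : E × ℝ)) hg
      (Sm.of_contDiff contDiff_fst _)
  have h3 : fderiv ℝ (fun p : E × ℝ => (g p.1, p.2)) (x, t) =
      (fderiv ℝ g x).prodMap (ContinuousLinearMap.id ℝ ℝ) := by
    have h4 : HasFDerivAt (fun p : E × ℝ => (g p.1, p.2))
        ((fderiv ℝ g x).prodMap (ContinuousLinearMap.id ℝ ℝ)) (x, t) := by
      have := hg.differentiableAt.hasFDerivAt.prodMap ((x, t) : E × ℝ)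
        (hasFDerivAt_id (𝕜 := ℝ) t)
      exact this
    exact h4.fderiv
  rw [h1, w.nat (u := cyl u) (g := fun p : E × ℝ => (g p.1, p.2)) (x := (x, t))
    (cyl_at (x := g x) h t) h2, h3]

theorem pull_prodMap_at0 {E F : Type} [NormedAddCommGroup E] [NormedSpace ℝ E]
    [FiniteDimensional ℝ E] [NormedAddCommGroup F] [NormedSpace ℝ F] [FiniteDimensional ℝ F]
    (L : E →L[ℝ] F) (w : Lam (F × ℝ)) :
    at0 (Fm.pull (L.prodMap (ContinuousLinearMap.id ℝ ℝ)) w) = Fm.pull L (at0 w) := by
  rw [at0_apply, at0_apply, ← pull_comp_apply, ← pull_comp_apply]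
  have h : (L.prodMap (ContinuousLinearMap.id ℝ ℝ)).comp (ContinuousLinearMap.inl ℝ E ℝ) =
      (ContinuousLinearMap.inl ℝ F ℝ).comp L := by
    refine ContinuousLinearMap.ext fun y => ?_
    simp
  rw [h]

theorem pull_prodMap_at1 {E F : Type} [NormedAddCommGroup E] [NormedSpace ℝ E]
    [FiniteDimensional ℝ E] [NormedAddCommGroup F] [NormedSpace ℝ F] [FiniteDimensional ℝ F]
    (L : E →L[ℝ] F) (w : Lam (F × ℝ)) :
    at1 (Fm.pull (L.prodMap (ContinuousLinearMap.id ℝ ℝ)) w) = Fm.pull L (at1 w) := by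
  rw [at1_apply, at1_apply, pull_iprod]
  have : (L.prodMap (ContinuousLinearMap.id ℝ ℝ)) ((0, 1) : E × ℝ) = (0, 1) := by simp
  rw [this, pull_prodMap_at0]

/-- restriction to time `t` -/
theorem map_slice (t : ℝ) : D.Map (D.prod (Dif.lin ℝ)) (fun x => (x, t)) :=
  fun h => ⟨h, Sm.of_contDiff contDiff_const _⟩

theorem slice_val {E : Type} [NormedAddCommGroup E] [NormedSpace ℝ E] [FiniteDimensional ℝ E]
    (w : Form (D.prod (Dif.lin ℝ))) (t : ℝ) {u : E → X} {x : E} (h : D.At u x) :
    (pull (fun x => (x, t)) (map_slice t) w).val u x = at0 (w.val (cyl u) (x, t)) := by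
  rw [pull_val _ _ h]
  have h1 : (fun x => (x, t)) ∘ u = cyl u ∘ fun y : E => (y, t) := rfl
  rw [h1, w.nat (u := cyl u) (g := fun y : E => (y, t)) (x := x) (cyl_at h t)
    (Sm.of_contDiff (contDiff_id.prodMk contDiff_const) _)]
  have h2 : fderiv ℝ (fun y : E => (y, t)) x = ContinuousLinearMap.inl ℝ E ℝ :=
    (hasFDerivAt_prodMk_left x t).fderiv
  rw [h2, at0_apply]

/-- the homotopy operator (integration over `[0, 1]` of the contraction with `∂_t`) -/
noncomputable def K (w : Form (D.prod (Dif.lin ℝ))) : Form D :=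
  mk' (fun u x => kop (w.val (cyl u)) x)
    (fun {E} _ _ _ {u x} h => by
      obtain ⟨U, hU, hx, _, hw⟩ := cyl_smooth w h
      exact (contDiffOn_kop hU hw).contDiffAt (hU.mem_nhds hx))
    (fun {E F} _ _ _ _ _ _ {u g x} h hg => by
      obtain ⟨U, hU, hx, _, hw⟩ := cyl_smooth w h
      have hc : Continuous fun t : ℝ => w.val (cyl u) (g x, t) :=
        hw.continuousOn.comp_continuous (Continuous.prodMk_right _) fun t => ⟨hx, mem_univ _⟩
      rw [kop, kop, ← pullL_apply, ← ContinuousLinearMap.intervalIntegral_comp_comm]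
      · refine intervalIntegral.integral_congr fun t _ => ?_
        change at1 (w.val (cyl (u ∘ g)) (x, t)) = Fm.pull _ (at1 _)
        rw [cyl_nat w h hg, pull_prodMap_at1]
      · exact ((at1 (E := F)).continuous.comp hc).intervalIntegrable _ _)
    (fun {E} _ _ _ {u v x} h huv => by
      rw [kop, kop]
      refine intervalIntegral.integral_congr fun t _ => ?_
      change at1 _ = at1 _
      rw [w.congr (cyl_at h t) (v := cyl v)]
      have h1 : Tendsto (Prod.fst : E × ℝ → E) (𝓝 (x, t)) (𝓝 x) := continuous_fst.continuousAt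
      filter_upwards [h1.eventually huv] with p hp
      simp only [cyl]
      rw [hp])

theorem K_val {E : Type} [NormedAddCommGroup E] [NormedSpace ℝ E] [FiniteDimensional ℝ E]
    (w : Form (D.prod (Dif.lin ℝ))) {u : E → X} {x : E} (h : D.At u x) :
    (K w).val u x = kop (w.val (cyl u)) x := mk'_val (D := D) h

/-- the homotopy formula -/
theorem homotopy (w : Form (D.prod (Dif.lin ℝ))) :
    pull (fun x => (x, (1 : ℝ))) (map_slice 1) w - pull (fun x => (x, (0 : ℝ))) (map_slice 0) w =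
      K w.d + (K w).d := ext_val fun E _ _ _ u x h => by
  obtain ⟨U, hU, hx, hU2, hw⟩ := cyl_smooth w h
  have h1 : (1 : WithTop ℕ∞) ≤ ∞ := WithTop.coe_le_coe.2 le_top
  rw [sub_val, add_val, slice_val _ _ h, slice_val _ _ h, K_val _ h, d_val _ h,
    kop_homotopy hU (hw.of_le h1) hx]
  congr 1
  · rw [kop, kop]
    refine intervalIntegral.integral_congr fun t _ => ?_
    change at1 _ = at1 _
    rw [d_val _ (cyl_at h t)]
  · refine extd_congr ?_
    filter_upwards [hU.mem_nhds hx] with y hy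
    rw [K_val _ (hU2 y hy)]

theorem K_add (w v : Form (D.prod (Dif.lin ℝ))) : K (w + v) = K w + K v :=
  ext_val fun E _ _ _ u x h => by
    obtain ⟨U, hU, hx, _, hw⟩ := cyl_smooth w h
    obtain ⟨U', hU', hx', _, hv⟩ := cyl_smooth v h
    have hc : Continuous fun t : ℝ => w.val (cyl u) (x, t) :=
      hw.continuousOn.comp_continuous (Continuous.prodMk_right _) fun t => ⟨hx, mem_univ _⟩
    have hc' : Continuous fun t : ℝ => v.val (cyl u) (x, t) :=
      hv.continuousOn.comp_continuous (Continuous.prodMk_right _) fun t => ⟨hx', mem_univ _⟩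
    rw [add_val, K_val _ h, K_val _ h, K_val _ h, kop, kop, kop]
    have h1 := intervalIntegral.integral_add (μ := volume) (a := 0) (b := 1)
      (f := fun t => at1 (w.val (cyl u) (x, t))) (g := fun t => at1 (v.val (cyl u) (x, t)))
      (((at1 (E := E)).continuous.comp hc).intervalIntegrable _ _)
      (((at1 (E := E)).continuous.comp hc').intervalIntegrable _ _)
    rw [← h1]
    refine intervalIntegral.integral_congr fun t _ => ?_
    exact map_add at1 _ _

theorem K_smul (c : ℝ) (w : Form (D.prod (Dif.lin ℝ))) : K (c • w) = c • K w :=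
  ext_val fun E _ _ _ u x h => by
    rw [smul_val, K_val _ h, K_val _ h, kop, kop, ← intervalIntegral.integral_smul]
    refine intervalIntegral.integral_congr fun t _ => ?_
    exact map_smul at1 _ _

/-- pulling back along `X × ℝ → X` in a cylinder -/
theorem fst_val {E : Type} [NormedAddCommGroup E] [NormedSpace ℝ E] [FiniteDimensional ℝ E]
    (a : Form D) {u : E → X} {x : E} (h : D.At u x) (t : ℝ) :
    (pull (Prod.fst : X × ℝ → X) (Dif.map_fst (D := D) (D' := Dif.lin ℝ)) a).val (cyl u) (x, t) =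
      Fm.pull (ContinuousLinearMap.fst ℝ E ℝ) (a.val u x) := by
  rw [pull_val _ _ (cyl_at h t)]
  have h1 : (Prod.fst : X × ℝ → X) ∘ cyl u = u ∘ (Prod.fst : E × ℝ → E) := rfl
  rw [h1, a.nat (u := u) (g := (Prod.fst : E × ℝ → E)) (x := (x, t)) h
    (Sm.of_contDiff contDiff_fst _)]
  rw [fderiv_fst]

theorem at1_fst_mul {E : Type} [NormedAddCommGroup E] [NormedSpace ℝ E] [FiniteDimensional ℝ E]
    (a : Lam E) (w : Lam (E × ℝ)) :
    at1 (Fm.pull (ContinuousLinearMap.fst ℝ E ℝ) a * w) = inv a * at1 w := by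
  rw [at1_apply, at1_apply, iprod_mul, map_add, pull_iprod]
  have h0 : (ContinuousLinearMap.fst ℝ E ℝ) ((0, 1) : E × ℝ) = 0 := rfl
  have h1 : iprod (0 : E) a = 0 := by
    have := iprod_smul 0 (0 : E) a
    rwa [zero_smul, zero_smul] at this
  rw [h0, h1, map_zero, zero_mul, map_zero, zero_add, ← pull_inv]
  have h2 : ∀ p q : Lam (E × ℝ), at0 (p * q) = at0 p * at0 q := fun p q =>
    map_mul (Fm.pull (ContinuousLinearMap.inl ℝ E ℝ)) p q
  rw [h2]
  congr 1
  rw [at0_apply, ← pull_comp_apply]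
  have h3 : (ContinuousLinearMap.fst ℝ E ℝ).comp (ContinuousLinearMap.inl ℝ E ℝ) =
      ContinuousLinearMap.id ℝ E := by ext; simp
  rw [h3, Fm.pull_id]
  rfl

theorem at1_mul_fst {E : Type} [NormedAddCommGroup E] [NormedSpace ℝ E] [FiniteDimensional ℝ E]
    (a : Lam E) (w : Lam (E × ℝ)) :
    at1 (w * Fm.pull (ContinuousLinearMap.fst ℝ E ℝ) a) = at1 w * a := by
  rw [at1_apply, at1_apply, iprod_mul, map_add, pull_iprod]
  have h0 : (ContinuousLinearMap.fst ℝ E ℝ) ((0, 1) : E × ℝ) = 0 := rfl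
  have h1 : iprod (0 : E) a = 0 := by
    have := iprod_smul 0 (0 : E) a
    rwa [zero_smul, zero_smul] at this
  rw [h0, h1, map_zero, mul_zero, map_zero, add_zero]
  have h2 : ∀ p q : Lam (E × ℝ), at0 (p * q) = at0 p * at0 q := fun p q =>
    map_mul (Fm.pull (ContinuousLinearMap.inl ℝ E ℝ)) p q
  rw [h2]
  congr 1
  rw [at0_apply, ← pull_comp_apply]
  have h3 : (ContinuousLinearMap.fst ℝ E ℝ).comp (ContinuousLinearMap.inl ℝ E ℝ) =
      ContinuousLinearMap.id ℝ E := by ext; simp
  rw [h3, Fm.pull_id]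
  rfl

/-- projection formula for the homotopy operator -/
theorem K_fst_mul (a : Form D) (w : Form (D.prod (Dif.lin ℝ))) :
    K (pull (Prod.fst : X × ℝ → X) (Dif.map_fst (D := D) (D' := Dif.lin ℝ)) a * w) = a.sg * K w :=
  ext_val fun E _ _ _ u x h => by
    rw [mul_val, K_val _ h, K_val _ h, kop, kop, sg_val]
    obtain ⟨U, hU, hx, _, hw⟩ := cyl_smooth w h
    have hc : Continuous fun t : ℝ => w.val (cyl u) (x, t) :=
      hw.continuousOn.comp_continuous (Continuous.prodMk_right _) fun t => ⟨hx, mem_univ _⟩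
    have h1 := ContinuousLinearMap.intervalIntegral_comp_comm
      (ContinuousLinearMap.mul ℝ (Lam E) (inv (a.val u x))) (a := 0) (b := 1) (μ := volume)
      (((at1 (E := E)).continuous.comp hc).intervalIntegrable 0 1)
    refine Eq.trans ?_ h1
    refine intervalIntegral.integral_congr fun t _ => ?_
    change at1 (_ * _) = inv _ * at1 _
    rw [fst_val a h t, at1_fst_mul]

theorem K_mul_fst (a : Form D) (w : Form (D.prod (Dif.lin ℝ))) :
    K (w * pull (Prod.fst : X × ℝ → X) (Dif.map_fst (D := D) (D' := Dif.lin ℝ)) a) = K w * a :=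
  ext_val fun E _ _ _ u x h => by
    rw [mul_val, K_val _ h, K_val _ h, kop, kop]
    obtain ⟨U, hU, hx, _, hw⟩ := cyl_smooth w h
    have hc : Continuous fun t : ℝ => w.val (cyl u) (x, t) :=
      hw.continuousOn.comp_continuous (Continuous.prodMk_right _) fun t => ⟨hx, mem_univ _⟩
    have h1 := ContinuousLinearMap.intervalIntegral_comp_comm
      ((ContinuousLinearMap.mul ℝ (Lam E)).flip (a.val u x)) (a := 0) (b := 1) (μ := volume)
      (((at1 (E := E)).continuous.comp hc).intervalIntegrable 0 1)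
    refine Eq.trans ?_ h1
    refine intervalIntegral.integral_congr fun t _ => ?_
    change at1 (_ * _) = at1 _ * _
    rw [fst_val a h t, at1_mul_fst]

end Form

end Vale.Agent.P231.Fm
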