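import Mathlib

/-!
# P231, forms layer (A): the exterior algebra of the dual of a finite-dimensional space

`Lam E` is the exterior algebra of the dual of `E`, with a norm making it a normed algebra.
-/

open Module

namespace Vale.Agent.P231.Fm

section Defs

variable (E : Type*) [NormedAddCommGroup E] [NormedSpace ℝ E]

/-- Constant coefficient differential forms on `E` (of mixed degree). -/
def Lam : Type _ := ExteriorAlgebra ℝ (E →L[ℝ] ℝ)

noncomputable instance : Ring (Lam E) := inferInstanceAs (Ring (ExteriorAlgebra ℝ (E →L[ℝ] ℝ)))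

noncomputable instance : Algebra ℝ (Lam E) :=
  inferInstanceAs (Algebra ℝ (ExteriorAlgebra ℝ (E →L[ℝ] ℝ)))

instance : Nontrivial (Lam E) := inferInstanceAs (Nontrivial (ExteriorAlgebra ℝ (E →L[ℝ] ℝ)))

end Defs

variable {E : Type*} [NormedAddCommGroup E] [NormedSpace ℝ E]
variable {F : Type*} [NormedAddCommGroup F] [NormedSpace ℝ F]
variable {G : Type*} [NormedAddCommGroup G] [NormedSpace ℝ G]

/-- the degree one element attached to a linear form -/
noncomputable def dxl : (E →L[ℝ] ℝ) →ₗ[ℝ] Lam E := ExteriorAlgebra.ι ℝ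

theorem dxl_mul_self (a : E →L[ℝ] ℝ) : dxl a * dxl a = 0 := ExteriorAlgebra.ι_sq_zero a

theorem dxl_anticomm (a b : E →L[ℝ] ℝ) : dxl a * dxl b = -(dxl b * dxl a) :=
  eq_neg_of_add_eq_zero_left (ExteriorAlgebra.ι_add_mul_swap a b)

/-- induction principle -/
theorem Lam.induction {C : Lam E → Prop} (h1 : ∀ r : ℝ, C (algebraMap ℝ (Lam E) r))
    (h2 : ∀ a : E →L[ℝ] ℝ, C (dxl a)) (h3 : ∀ a b, C a → C b → C (a * b))
    (h4 : ∀ a b, C a → C b → C (a + b)) (w : Lam E) : C w :=
  ExteriorAlgebra.induction (C := C) h1 h2 h3 h4 w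

/-- universal property -/
noncomputable def Lam.lift {A : Type*} [Ring A] [Algebra ℝ A] (f : (E →L[ℝ] ℝ) →ₗ[ℝ] A)
    (hf : ∀ a, f a * f a = 0) : Lam E →ₐ[ℝ] A :=
  ExteriorAlgebra.lift ℝ ⟨f, hf⟩

@[simp] theorem Lam.lift_dxl {A : Type*} [Ring A] [Algebra ℝ A] (f : (E →L[ℝ] ℝ) →ₗ[ℝ] A)
    (hf : ∀ a, f a * f a = 0) (a : E →L[ℝ] ℝ) : Lam.lift f hf (dxl a) = f a :=
  ExteriorAlgebra.lift_ι_apply ℝ f hf a

theorem Lam.algHom_ext {A : Type*} [Ring A] [Algebra ℝ A] {f g : Lam E →ₐ[ℝ] A}
    (h : ∀ a, f (dxl a) = g (dxl a)) : f = g := by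
  refine AlgHom.ext fun w => ?_
  induction w using Lam.induction with
  | h1 r => rw [AlgHom.commutes, AlgHom.commutes]
  | h2 a => exact h a
  | h3 a b ha hb => rw [map_mul, map_mul, ha, hb]
  | h4 a b ha hb => rw [map_add, map_add, ha, hb]

/-- the grade involution -/
noncomputable def inv : Lam E →ₐ[ℝ] Lam E :=
  Lam.lift (-dxl) fun a => by simp [dxl_mul_self]

@[simp] theorem inv_dxl (a : E →L[ℝ] ℝ) : inv (dxl a) = -dxl a := by
  simp [inv]

@[simp] theorem inv_inv (w : Lam E) : inv (inv w) = w := by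
  have h : (inv.comp inv : Lam E →ₐ[ℝ] Lam E) = AlgHom.id ℝ (Lam E) :=
    Lam.algHom_ext fun a => by simp
  exact DFunLike.congr_fun h w

theorem dxl_mul (a : E →L[ℝ] ℝ) (w : Lam E) : dxl a * w = inv w * dxl a := by
  induction w using Lam.induction with
  | h1 r => rw [AlgHom.commutes]; exact (Algebra.commutes r _).symm
  | h2 b => rw [inv_dxl, neg_mul, dxl_anticomm]
  | h3 v w hv hw => rw [← mul_assoc, hv, mul_assoc, hw, map_mul, mul_assoc]
  | h4 v w hv hw => rw [mul_add, hv, hw, map_add, add_mul]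

/-- pullback of constant forms along a linear map -/
noncomputable def pull (L : E →L[ℝ] F) : Lam F →ₐ[ℝ] Lam E :=
  Lam.lift (dxl.comp ((ContinuousLinearMap.compL ℝ E F ℝ).flip L).toLinearMap)
    fun a => by simp [dxl_mul_self]

@[simp] theorem pull_dxl (L : E →L[ℝ] F) (a : F →L[ℝ] ℝ) : pull L (dxl a) = dxl (a.comp L) := by
  simp [pull]

@[simp] theorem pull_id : pull (ContinuousLinearMap.id ℝ E) = AlgHom.id ℝ (Lam E) :=
  Lam.algHom_ext fun a => by simp

theorem pull_comp (L : E →L[ℝ] F) (L' : F →L[ℝ] G) :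
    pull (L'.comp L) = (pull L).comp (pull L') :=
  Lam.algHom_ext fun a => by simp [ContinuousLinearMap.comp_assoc]

theorem pull_comp_apply (L : E →L[ℝ] F) (L' : F →L[ℝ] G) (w : Lam G) :
    pull (L'.comp L) w = pull L (pull L' w) := by rw [pull_comp]; rfl

theorem pull_inv (L : E →L[ℝ] F) (w : Lam F) : pull L (inv w) = inv (pull L w) := by
  have h : (pull L).comp inv = (inv : Lam E →ₐ[ℝ] Lam E).comp (pull L) :=
    Lam.algHom_ext fun a => by simp
  exact DFunLike.congr_fun h w

section FD

variable [FiniteDimensional ℝ E] [FiniteDimensional ℝ F]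

instance : FiniteDimensional ℝ (E →L[ℝ] ℝ) := inferInstance

instance : FiniteDimensional ℝ (Lam E) := by
  let b := (Module.finBasis ℝ (E →L[ℝ] ℝ)).ExteriorAlgebra
  exact Module.Finite.of_basis (b : Basis _ ℝ (ExteriorAlgebra ℝ (E →L[ℝ] ℝ)))

/-- a coordinate space for `Lam E` -/
abbrev LamCoord (E : Type*) [NormedAddCommGroup E] [NormedSpace ℝ E] [FiniteDimensional ℝ E] :=
  Fin (Module.finrank ℝ (Lam E)) → ℝ

/-- coordinates -/
noncomputable def lamEquiv : Lam E ≃ₗ[ℝ] LamCoord E := (Module.finBasis ℝ (Lam E)).equivFun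

/-- left multiplication in coordinates -/
noncomputable def lmulHom : Lam E →ₐ[ℝ] (LamCoord E →L[ℝ] LamCoord E) where
  toFun w := LinearMap.toContinuousLinearMap
    ((lamEquiv.toLinearMap ∘ₗ LinearMap.mulLeft ℝ w) ∘ₗ (lamEquiv (E := E)).symm.toLinearMap)
  map_one' := by
    ext x
    simp
  map_mul' v w := by
    ext x
    simp
  map_zero' := by
    ext x
    simp
  map_add' v w := by
    ext x
    simp [add_mul]
  commutes' r := by
    ext x
    simp [Algebra.algebraMap_eq_smul_one]

theorem lmulHom_injective : Function.Injective (lmulHom : Lam E → _) := by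
  intro v w h
  have h1 := DFunLike.congr_fun h (lamEquiv (1 : Lam E))
  simpa [lmulHom] using h1

noncomputable instance : NormedRing (Lam E) :=
  NormedRing.induced (Lam E) (LamCoord E →L[ℝ] LamCoord E) (lmulHom : Lam E →ₐ[ℝ] _).toRingHom
    lmulHom_injective

noncomputable instance : NormedAlgebra ℝ (Lam E) :=
  NormedAlgebra.induced ℝ (Lam E) (LamCoord E →L[ℝ] LamCoord E) (lmulHom : Lam E →ₐ[ℝ] _)

/-- `dxl` as a continuous linear map -/
noncomputable def dx : (E →L[ℝ] ℝ) →L[ℝ] Lam E := LinearMap.toContinuousLinearMap dxl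

theorem dx_eq (a : E →L[ℝ] ℝ) : dx a = dxl a := rfl

theorem dx_mul_self (a : E →L[ℝ] ℝ) : dx a * dx a = 0 := dxl_mul_self a

theorem dx_anticomm (a b : E →L[ℝ] ℝ) : dx a * dx b = -(dx b * dx a) := dxl_anticomm a b

theorem dx_mul (a : E →L[ℝ] ℝ) (w : Lam E) : dx a * w = inv w * dx a := dxl_mul a w

@[simp] theorem inv_dx (a : E →L[ℝ] ℝ) : inv (dx a) = -dx a := inv_dxl a

@[simp] theorem pull_dx (L : E →L[ℝ] F) (a : F →L[ℝ] ℝ) : pull L (dx a) = dx (a.comp L) :=
  pull_dxl L a

theorem Lam.ind {C : Lam E → Prop} (h1 : ∀ r : ℝ, C (algebraMap ℝ (Lam E) r))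
    (h2 : ∀ a : E →L[ℝ] ℝ, C (dx a)) (h3 : ∀ a b, C a → C b → C (a * b))
    (h4 : ∀ a b, C a → C b → C (a + b)) (w : Lam E) : C w :=
  Lam.induction h1 h2 h3 h4 w

/-- even elements are central -/
theorem mul_comm_of_even {v : Lam E} (hv : inv v = v) (w : Lam E) : v * w = w * v := by
  induction w using Lam.ind with
  | h1 r => exact (Algebra.commutes r v).symm
  | h2 a => rw [dx_mul, hv]
  | h3 a b ha hb => rw [← mul_assoc, ha, mul_assoc, hb, mul_assoc]
  | h4 a b ha hb => rw [mul_add, add_mul, ha, hb]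

/-- odd elements commute up to the grade involution -/
theorem mul_of_odd {v : Lam E} (hv : inv v = -v) (w : Lam E) : v * w = inv w * v := by
  induction w using Lam.ind with
  | h1 r => rw [AlgHom.commutes]; exact (Algebra.commutes r v).symm
  | h2 a => rw [inv_dx, neg_mul, dx_mul, hv, neg_mul, neg_neg]
  | h3 a b ha hb => rw [← mul_assoc, ha, mul_assoc, hb, map_mul, mul_assoc]
  | h4 a b ha hb => rw [mul_add, map_add, add_mul, ha, hb]

theorem mul_self_of_odd {v : Lam E} (hv : inv v = -v) : v * v = 0 := by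
  have h := mul_of_odd hv v
  rw [hv, neg_mul] at h
  have h2 : (2 : ℝ) • (v * v) = 0 := by
    rw [two_smul]
    nth_rewrite 1 [h]
    exact neg_add_cancel _
  exact (smul_eq_zero.1 h2).resolve_left two_ne_zero

/-- pullback as a continuous linear map -/
noncomputable def pullL (L : E →L[ℝ] F) : Lam F →L[ℝ] Lam E :=
  LinearMap.toContinuousLinearMap (pull L).toLinearMap

@[simp] theorem pullL_apply (L : E →L[ℝ] F) (w : Lam F) : pullL L w = pull L w := rfl

theorem contDiff_pull (w : Lam F) {n : WithTop ℕ∞} :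
    ContDiff ℝ n (fun L : E →L[ℝ] F => pull L w) := by
  induction w using Lam.ind with
  | h1 r => simpa only [AlgHom.commutes] using contDiff_const
  | h2 a =>
    simp only [pull_dx]
    exact (dx.comp (ContinuousLinearMap.compL ℝ E F ℝ a)).contDiff
  | h3 a b ha hb => simpa only [map_mul] using ha.mul hb
  | h4 a b ha hb => simpa only [map_add] using ha.add hb

theorem contDiff_pullL {n : WithTop ℕ∞} : ContDiff ℝ n (fun L : E →L[ℝ] F => pullL L) :=
  contDiff_clm_apply_iff.2 fun w => contDiff_pull w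

/-- the grade involution as a continuous linear map -/
noncomputable def invL : Lam E →L[ℝ] Lam E := LinearMap.toContinuousLinearMap inv.toLinearMap

@[simp] theorem invL_apply (w : Lam E) : invL w = inv w := rfl

/-! ### the contraction `E^* ⊗ Lam E → Lam E` -/

/-- `E →L Lam E` is spanned by the rank one maps -/
theorem clm_ind {V : Type*} [NormedAddCommGroup V] [NormedSpace ℝ V] {C : (E →L[ℝ] V) → Prop}
    (h1 : ∀ (a : E →L[ℝ] ℝ) (w : V), C (a.smulRight w)) (h0 : C 0)
    (h2 : ∀ S T, C S → C T → C (S + T)) (T : E →L[ℝ] V) : C T := by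
  classical
  let b := Module.finBasis ℝ E
  have h : T = ∑ i, (LinearMap.toContinuousLinearMap (b.coord i)).smulRight (T (b i)) := by
    refine ContinuousLinearMap.ext fun x => ?_
    have hx : T x = T (∑ i, b.coord i x • b i) := congrArg T (b.sum_repr x).symm
    rw [hx, map_sum, sum_apply]
    refine Finset.sum_congr rfl fun i _ => ?_
    rw [map_smul]
    rfl
  rw [h]
  have : ∀ s : Finset (Fin (Module.finrank ℝ E)),
      C (∑ i ∈ s, (LinearMap.toContinuousLinearMap (b.coord i)).smulRight (T (b i))) := by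
    intro s
    induction s using Finset.induction_on with
    | empty => simpa using h0
    | insert i s hi ih => rw [Finset.sum_insert hi]; exact h2 _ _ (h1 _ _) ih
  exact this _

/-- the map `E^* ⊗ Lam E → Lam E`, `a ⊗ w ↦ dx a * w` -/
noncomputable def dLin : (E →L[ℝ] Lam E) →L[ℝ] Lam E :=
  ∑ i : Fin (Module.finrank ℝ E),
    (ContinuousLinearMap.mul ℝ (Lam E)
      (dx (LinearMap.toContinuousLinearMap ((Module.finBasis ℝ E).coord i)))).comp
      (ContinuousLinearMap.apply ℝ (Lam E) (Module.finBasis ℝ E i))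

theorem dLin_apply (T : E →L[ℝ] Lam E) : dLin T = ∑ i : Fin (Module.finrank ℝ E),
    dx (LinearMap.toContinuousLinearMap ((Module.finBasis ℝ E).coord i)) *
      T (Module.finBasis ℝ E i) := by
  simp [dLin]

@[simp] theorem dLin_smulRight (a : E →L[ℝ] ℝ) (w : Lam E) :
    dLin (a.smulRight w) = dx a * w := by
  rw [dLin_apply]
  have h : a = ∑ i, a (Module.finBasis ℝ E i) •
      LinearMap.toContinuousLinearMap ((Module.finBasis ℝ E).coord i) := by
    refine ContinuousLinearMap.ext fun x => ?_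
    have hx : a x = a (∑ i, (Module.finBasis ℝ E).coord i x • Module.finBasis ℝ E i) :=
      congrArg a ((Module.finBasis ℝ E).sum_repr x).symm
    rw [hx, map_sum, sum_apply]
    refine Finset.sum_congr rfl fun i _ => ?_
    rw [map_smul, smul_eq_mul, mul_comm]
    rfl
  conv_rhs => rw [h]
  rw [map_sum, Finset.sum_mul]
  refine Finset.sum_congr rfl fun i _ => ?_
  simp

theorem dLin_mul_right (T : E →L[ℝ] Lam E) (w : Lam E) :
    dLin ((ContinuousLinearMap.mul ℝ (Lam E)).flip w ∘L T) = dLin T * w := by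
  induction T using clm_ind with
  | h1 a v =>
    have : (ContinuousLinearMap.mul ℝ (Lam E)).flip w ∘L (a.smulRight v) =
        a.smulRight (v * w) := by ext x; simp
    rw [this, dLin_smulRight, dLin_smulRight, mul_assoc]
  | h0 => simp
  | h2 S T hS hT => rw [ContinuousLinearMap.comp_add, map_add, map_add, add_mul, hS, hT]

theorem dLin_mul_left (T : E →L[ℝ] Lam E) (w : Lam E) :
    dLin (ContinuousLinearMap.mul ℝ (Lam E) w ∘L T) = inv w * dLin T := by
  induction T using clm_ind with
  | h1 a v =>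
    have : ContinuousLinearMap.mul ℝ (Lam E) w ∘L (a.smulRight v) =
        a.smulRight (w * v) := by ext x; simp
    rw [this, dLin_smulRight, dLin_smulRight, ← mul_assoc, ← mul_assoc, dx_mul]
  | h0 => simp
  | h2 S T hS hT => rw [ContinuousLinearMap.comp_add, map_add, map_add, mul_add, hS, hT]

theorem inv_dLin (T : E →L[ℝ] Lam E) : inv (dLin T) = -dLin (invL ∘L T) := by
  induction T using clm_ind with
  | h1 a v =>
    have : invL ∘L (a.smulRight v) = a.smulRight (inv v) := by ext x; simp
    rw [this, dLin_smulRight, dLin_smulRight, map_mul, inv_dx, neg_mul]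
  | h0 => simp
  | h2 S T hS hT =>
    rw [ContinuousLinearMap.comp_add, map_add, map_add, map_add, hS, hT, neg_add]

theorem pull_dLin (L : E →L[ℝ] F) (T : F →L[ℝ] Lam F) :
    pull L (dLin T) = dLin ((pullL L ∘L T) ∘L L) := by
  induction T using clm_ind with
  | h1 a v =>
    have : (pullL L ∘L (a.smulRight v)) ∘L L = (a.comp L).smulRight (pull L v) := by
      ext x; simp
    rw [this, dLin_smulRight, dLin_smulRight, map_mul, pull_dx]
  | h0 => simp
  | h2 S T hS hT =>
    rw [ContinuousLinearMap.comp_add, ContinuousLinearMap.add_comp, map_add, map_add, map_add,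
      hS, hT]

/-- a symmetric second derivative is killed -/
theorem dLin_dLin_symm (B : E →L[ℝ] E →L[ℝ] Lam E) (hB : ∀ u v, B u v = B v u) :
    dLin (dLin ∘L B) = 0 := by
  rw [dLin_apply]
  simp only [ContinuousLinearMap.comp_apply, dLin_apply, Finset.mul_sum, ← mul_assoc]
  have h2 : ∀ x : Lam E, x = -x → x = 0 := fun x hx => by
    have h3 : (2 : ℝ) • x = 0 := by
      rw [two_smul]
      nth_rewrite 1 [hx]
      exact neg_add_cancel _
    exact (smul_eq_zero.1 h3).resolve_left two_ne_zero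
  apply h2
  conv_rhs => rw [Finset.sum_comm]
  rw [← Finset.sum_neg_distrib]
  refine Finset.sum_congr rfl fun i _ => ?_
  rw [← Finset.sum_neg_distrib]
  refine Finset.sum_congr rfl fun j _ => ?_
  rw [hB, dx_anticomm, neg_mul]

/-! ### interior product -/

/-- interior product with a vector -/
noncomputable def iprod (v : E) : Lam E →ₗ[ℝ] Lam E :=
  CliffordAlgebra.contractLeft (Q := (0 : QuadraticForm ℝ (E →L[ℝ] ℝ)))
    ((ContinuousLinearMap.apply ℝ ℝ v).toLinearMap)

theorem iprod_algebraMap (v : E) (r : ℝ) : iprod v (algebraMap ℝ (Lam E) r) = 0 :=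
  CliffordAlgebra.contractLeft_algebraMap (Q := (0 : QuadraticForm ℝ (E →L[ℝ] ℝ))) _ r

@[simp] theorem iprod_one (v : E) : iprod v (1 : Lam E) = 0 := by
  have := iprod_algebraMap v 1
  rwa [map_one] at this

theorem iprod_dx_mul (v : E) (a : E →L[ℝ] ℝ) (w : Lam E) :
    iprod v (dx a * w) = a v • w - dx a * iprod v w :=
  CliffordAlgebra.contractLeft_ι_mul (Q := (0 : QuadraticForm ℝ (E →L[ℝ] ℝ))) _ a w

@[simp] theorem iprod_dx (v : E) (a : E →L[ℝ] ℝ) : iprod v (dx a) = algebraMap ℝ (Lam E) (a v) := by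
  have := iprod_dx_mul v a 1
  rwa [mul_one, iprod_one, mul_zero, sub_zero, ← Algebra.algebraMap_eq_smul_one] at this

theorem iprod_mul (v : E) (w₁ w₂ : Lam E) :
    iprod v (w₁ * w₂) = iprod v w₁ * w₂ + inv w₁ * iprod v w₂ := by
  induction w₁ using Lam.ind generalizing w₂ with
  | h1 r =>
    rw [iprod_algebraMap, zero_mul, zero_add, AlgHom.commutes, ← Algebra.smul_def, map_smul,
      Algebra.smul_def]
  | h2 a =>
    rw [iprod_dx_mul, iprod_dx, inv_dx, neg_mul, Algebra.smul_def, sub_eq_add_neg]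
  | h3 a b ha hb =>
    rw [mul_assoc, ha, hb, ha, map_mul]
    noncomm_ring
  | h4 a b ha hb => rw [add_mul, map_add, ha, hb, map_add, map_add]; noncomm_ring

theorem pull_iprod (L : E →L[ℝ] F) (v : E) (w : Lam F) :
    iprod v (pull L w) = pull L (iprod (L v) w) := by
  induction w using Lam.ind with
  | h1 r => simp [iprod_algebraMap]
  | h2 a => simp
  | h3 a b ha hb => rw [map_mul, iprod_mul, iprod_mul, ha, hb, map_add, map_mul, map_mul, pull_inv]
  | h4 a b ha hb => rw [map_add, map_add, map_add, map_add, ha, hb]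

theorem inv_iprod (v : E) (w : Lam E) : inv (iprod v w) = -iprod v (inv w) := by
  induction w using Lam.ind with
  | h1 r => simp [iprod_algebraMap]
  | h2 a => simp
  | h3 a b ha hb =>
    simp only [map_mul, iprod_mul, map_add, ha, hb, inv_inv]
    noncomm_ring
  | h4 a b ha hb => simp only [map_add, ha, hb]; abel

/-- interior product as a continuous linear map -/
noncomputable def iprodL (v : E) : Lam E →L[ℝ] Lam E := LinearMap.toContinuousLinearMap (iprod v)

@[simp] theorem iprodL_apply (v : E) (w : Lam E) : iprodL v w = iprod v w := rfl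

theorem iprod_dLin (v : E) (T : E →L[ℝ] Lam E) :
    iprod v (dLin T) = T v - dLin (iprodL v ∘L T) := by
  induction T using clm_ind with
  | h1 a w =>
    have : iprodL v ∘L (a.smulRight w) = a.smulRight (iprod v w) := by ext x; simp
    rw [this, dLin_smulRight, dLin_smulRight, iprod_dx_mul]
    simp
  | h0 => simp
  | h2 S T hS hT =>
    rw [ContinuousLinearMap.comp_add, map_add, map_add, map_add, hS, hT]
    simp only [add_apply]
    noncomm_ring

end FD

end Vale.Agent.P231.Fm
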