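import Vale.Agent.P231.Fm.Cont
import Vale.Agent.P231.Fm.Param

/-!
# P231, forms layer: integration along the fibre and Stokes' theorem
-/

set_option linter.unusedSectionVars false

open MeasureTheory Set Module
open scoped ContDiff

namespace Vale.Agent.P231.Fm

variable {E : Type*} [NormedAddCommGroup E] [NormedSpace ℝ E] [FiniteDimensional ℝ E]
variable {F : Type*} [NormedAddCommGroup F] [NormedSpace ℝ F] [FiniteDimensional ℝ F]
  [MeasurableSpace F] [BorelSpace F]

instance {E : Type*} [NormedAddCommGroup E] [NormedSpace ℝ E] [FiniteDimensional ℝ E] :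
    CompleteSpace (Lam E) := FiniteDimensional.complete ℝ (Lam E)

/-- the vertical vectors -/
def vert {k : ℕ} (v : Fin k → F) (i : Fin k) : E × F := (0, v i)

/-- contraction with vertical vectors and restriction to the horizontal slice -/
noncomputable def slice {k : ℕ} (v : Fin k → F) : Lam (E × F) →L[ℝ] Lam E :=
  pullL (ContinuousLinearMap.inl ℝ E F) ∘L contL (vert v)

theorem slice_apply {k : ℕ} (v : Fin k → F) (w : Lam (E × F)) :
    slice v w = pull (ContinuousLinearMap.inl ℝ E F) (cont (vert v) w) := rfl

/-- integration along the fibre `F` (with respect to the measure `μ` and the vectors `v`) -/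
noncomputable def fib (μ : Measure F) {k : ℕ} (v : Fin k → F) (w : E × F → Lam (E × F)) (x : E) :
    Lam E := ∫ y, slice v (w (x, y)) ∂μ

/-- smoothness of the fibre integral -/
theorem contDiffOn_fib (μ : Measure F) [μ.IsAddHaarMeasure] {n : ℕ∞} {U : Set E} (hU : IsOpen U)
    {K : Set F} (hK : IsCompact K) {k : ℕ} (v : Fin k → F) {w : E × F → Lam (E × F)}
    (hw : ContDiffOn ℝ n w (U ×ˢ univ)) (h0 : ∀ x ∈ U, ∀ y ∉ K, w (x, y) = 0) :
    ContDiffOn ℝ n (fib μ v w) U := by
  have h1 : ContDiffOn ℝ n (fun p => slice (E := E) v (w p)) (U ×ˢ univ) :=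
    (slice (E := E) v).contDiff.comp_contDiffOn hw
  have h2 := contDiffOn_param μ hU hK (f := fun _ => 1) (locallyIntegrable_const _) h1
    (fun x hx y hy => by rw [h0 x hx y hy, map_zero])
  refine h2.congr fun x _ => ?_
  simp only [one_smul]
  rfl

/-- integration along the fibre commutes with the exterior derivative, up to the sign `(-1)^k` -/
theorem extd_fib (μ : Measure F) [μ.IsAddHaarMeasure] {U : Set E} (hU : IsOpen U)
    {K : Set F} (hK : IsCompact K) {k : ℕ} (v : Fin k → F) {w : E × F → Lam (E × F)}
    (hw : ContDiffOn ℝ 1 w (U ×ˢ univ)) (h0 : ∀ x ∈ U, ∀ y ∉ K, w (x, y) = 0) {x : E}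
    (hx : x ∈ U) : fib μ v (extd w) x = (-1 : ℝ) ^ k • extd (fib μ v w) x := by
  have hopen : IsOpen (U ×ˢ (univ : Set F)) := hU.prod isOpen_univ
  induction k generalizing w with
  | zero =>
    rw [pow_zero, one_smul]
    have hd : ∀ y, DifferentiableAt ℝ w (x, y) := fun y =>
      (hw.differentiableOn (by norm_num)).differentiableAt (hopen.mem_nhds ⟨hx, mem_univ _⟩)
    have h1 : ContDiffOn ℝ 1 (fun p => slice (E := E) v (w p)) (U ×ˢ univ) :=
      (slice (E := E) v).contDiff.comp_contDiffOn hw
    have h2 := hasFDerivAt_param μ hU hK (f := fun _ => 1) (locallyIntegrable_const _) h1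
      (fun x hx y hy => by rw [h0 x hx y hy, map_zero]) hx
    simp only [one_smul] at h2
    have h3 : extd (fib μ v w) x = _ := extd_of (w := fib μ v w) h2
    rw [h3]
    have h4 : ∀ y, fderiv ℝ (fun p => slice (E := E) v (w p)) (x, y) =
        slice v ∘L fderiv ℝ w (x, y) := fun y =>
      ((slice (E := E) v).hasFDerivAt.comp (x, y) (hd y).hasFDerivAt).fderiv
    simp only [h4]
    have hG : ContinuousOn (fderiv ℝ w) (U ×ˢ univ) :=
      hw.continuousOn_fderiv_of_isOpen hopen (by norm_num)
    have hcf : Continuous fun y => fderiv ℝ w (x, y) :=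
      hG.comp_continuous (Continuous.prodMk_right x) fun y => ⟨hx, mem_univ _⟩
    have hz : ∀ y ∉ K, fderiv ℝ w (x, y) = 0 := by
      intro y hy
      have h5 : w =ᶠ[nhds (x, y)] fun _ => (0 : Lam (E × F)) := by
        have : U ×ˢ Kᶜ ∈ nhds (x, y) :=
          (hU.prod hK.isClosed.isOpen_compl).mem_nhds ⟨hx, hy⟩
        filter_upwards [this] with p hp using h0 p.1 hp.1 p.2 hp.2
      rw [h5.fderiv_eq]
      exact fderiv_const_apply _
    have hint : Integrable (fun y => (slice (E := E) v ∘L fderiv ℝ w (x, y)) ∘L
        ContinuousLinearMap.inl ℝ E F) μ := by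
      refine Continuous.integrable_of_hasCompactSupport
        ((continuous_const.clm_comp hcf).clm_comp continuous_const) ?_
      exact HasCompactSupport.intro hK fun y hy => by rw [hz y hy]; simp
    rw [← ContinuousLinearMap.integral_comp_comm dLin hint]
    refine integral_congr_ae (Filter.Eventually.of_forall fun y => ?_)
    change slice v (dLin (fderiv ℝ w (x, y))) = _
    rw [slice_apply]
    change pull (ContinuousLinearMap.inl ℝ E F) (dLin (fderiv ℝ w (x, y))) = _
    rw [pull_dLin]
    rfl
  | succ k ih =>
    -- contract with the first vector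
    let u : E × F := (0, v 0)
    let w' : E × F → Lam (E × F) := fun p => iprod u (w p)
    have hw' : ContDiffOn ℝ 1 w' (U ×ˢ univ) := (iprodL u).contDiff.comp_contDiffOn hw
    have h0' : ∀ x ∈ U, ∀ y ∉ K, w' (x, y) = 0 := fun x hx y hy => by
      simp only [w']
      rw [h0 x hx y hy, map_zero]
    have hd : ∀ y, DifferentiableAt ℝ w (x, y) := fun y =>
      (hw.differentiableOn (by norm_num)).differentiableAt (hopen.mem_nhds ⟨hx, mem_univ _⟩)
    have h1 := ih (fun i => v i.succ) hw' h0'
    have h2 : fib μ (fun i => v i.succ) w' = fib μ v w := by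
      funext z
      rfl
    rw [h2] at h1
    have h3 : ∀ y, slice (E := E) v (extd w (x, y)) =
        slice (fun i => v i.succ) (fderiv ℝ w (x, y) u) -
          slice (fun i => v i.succ) (extd w' (x, y)) := by
      intro y
      have h4 := iprod_extd (hd y) u
      have h5 : iprod u (extd w (x, y)) = fderiv ℝ w (x, y) u - extd w' (x, y) :=
        eq_sub_of_add_eq h4
      have h6 : slice (E := E) v (extd w (x, y)) =
          slice (fun i => v i.succ) (iprod u (extd w (x, y))) := rfl
      rw [h6, h5, map_sub]
    -- the section `y ↦ w (x, y)`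
    let h : F → Lam (E × F) := fun y => w (x, y)
    have hh : ContDiff ℝ 1 h := by
      refine contDiff_iff_contDiffAt.2 fun y => ?_
      have h7 : ContDiffAt ℝ 1 w (x, y) := hw.contDiffAt (hopen.mem_nhds ⟨hx, mem_univ _⟩)
      exact h7.comp y (contDiffAt_const.prodMk contDiffAt_id)
    have hc : HasCompactSupport h := HasCompactSupport.intro hK fun y hy => h0 x hx y hy
    have hfd : ∀ y, fderiv ℝ h y (v 0) = fderiv ℝ w (x, y) u := by
      intro y
      have h8 : HasFDerivAt h (fderiv ℝ w (x, y) ∘L ContinuousLinearMap.inr ℝ E F) y :=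
        (hd y).hasFDerivAt.comp y (hasFDerivAt_prodMk_right x y)
      rw [h8.fderiv]
      rfl
    have hint1 : Integrable (fun y => slice (E := E) (fun i => v i.succ)
        (fderiv ℝ w (x, y) u)) μ := by
      have h9 : Continuous fun y => fderiv ℝ h y (v 0) :=
        (hh.continuous_fderiv (by norm_num)).clm_apply continuous_const
      have h10 : HasCompactSupport fun y => fderiv ℝ h y (v 0) :=
        (hc.fderiv ℝ).comp_left (g := fun L : F →L[ℝ] Lam (E × F) => L (v 0)) (by simp)
      have h11 : Integrable (fun y => fderiv ℝ h y (v 0)) μ :=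
        h9.integrable_of_hasCompactSupport h10
      have h12 := (slice (E := E) (fun i => v i.succ)).integrable_comp h11
      refine h12.congr (Filter.Eventually.of_forall fun y => ?_)
      change slice _ (fderiv ℝ h y (v 0)) = _
      rw [hfd]
    have hint2 : Integrable (fun y => slice (E := E) (fun i => v i.succ) (extd w' (x, y))) μ := by
      have hG : ContinuousOn (fderiv ℝ w') (U ×ˢ univ) :=
        hw'.continuousOn_fderiv_of_isOpen hopen (by norm_num)
      have hcf : Continuous fun y => fderiv ℝ w' (x, y) :=
        hG.comp_continuous (Continuous.prodMk_right x) fun y => ⟨hx, mem_univ _⟩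
      refine Continuous.integrable_of_hasCompactSupport
        ((slice (E := E) fun i => v i.succ).continuous.comp (dLin.continuous.comp hcf)) ?_
      refine HasCompactSupport.intro hK fun y hy => ?_
      have h5 : w' =ᶠ[nhds (x, y)] fun _ => (0 : Lam (E × F)) := by
        have : U ×ˢ Kᶜ ∈ nhds (x, y) :=
          (hU.prod hK.isClosed.isOpen_compl).mem_nhds ⟨hx, hy⟩
        filter_upwards [this] with p hp using h0' p.1 hp.1 p.2 hp.2
      change slice _ (dLin (fderiv ℝ w' (x, y))) = 0
      rw [h5.fderiv_eq]
      simp
    have h13 : fib μ v (extd w) x = (∫ y, slice (E := E) (fun i => v i.succ)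
        (fderiv ℝ w (x, y) u) ∂μ) - fib μ (fun i => v i.succ) (extd w') x := by
      rw [fib, fib, ← integral_sub hint1 hint2]
      exact integral_congr_ae (Filter.Eventually.of_forall h3)
    have h14 : ∫ y, slice (E := E) (fun i => v i.succ) (fderiv ℝ w (x, y) u) ∂μ = 0 := by
      have h15 := integral_fderiv_fibre μ hh hc (v 0)
      have h9 : Continuous fun y => fderiv ℝ h y (v 0) :=
        (hh.continuous_fderiv (by norm_num)).clm_apply continuous_const
      have h10 : HasCompactSupport fun y => fderiv ℝ h y (v 0) :=
        (hc.fderiv ℝ).comp_left (g := fun L : F →L[ℝ] Lam (E × F) => L (v 0)) (by simp)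
      have h11 : Integrable (fun y => fderiv ℝ h y (v 0)) μ :=
        h9.integrable_of_hasCompactSupport h10
      have h16 := ContinuousLinearMap.integral_comp_comm
        (slice (E := E) fun i : Fin k => v i.succ) h11
      rw [h15, map_zero] at h16
      rw [← h16]
      refine integral_congr_ae (Filter.Eventually.of_forall fun y => ?_)
      change _ = slice _ (fderiv ℝ h y (v 0))
      rw [hfd]
    rw [h13, h14, zero_sub, h1, pow_succ, mul_neg_one, neg_smul]

/-- Stokes: the integral of the top coefficient of an exact compactly supported form is zero -/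
theorem integral_evalForm_extd (μ : Measure F) [μ.IsAddHaarMeasure] {k : ℕ} (v : Fin k → F)
    {w : F → Lam F} (hw : ContDiff ℝ 1 w) (hc : HasCompactSupport w) :
    ∫ y, evalForm (extd w y) v ∂μ = 0 := by
  induction k generalizing w with
  | zero =>
    have : ∀ y, evalForm (extd w y) v = 0 := fun y => by
      change aug (dLin (fderiv ℝ w y)) = 0
      exact aug_dLin _
    simp [this]
  | succ k ih =>
    let w' : F → Lam F := fun p => iprod (v 0) (w p)
    have hw' : ContDiff ℝ 1 w' := (iprodL (v 0)).contDiff.comp hw
    have hc' : HasCompactSupport w' := hc.comp_left (g := iprod (v 0)) (by simp)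
    have h1 := ih (fun i => v i.succ) hw' hc'
    have h3 : ∀ y, evalForm (extd w y) v =
        evalL (fun i => v i.succ) (fderiv ℝ w y (v 0)) -
          evalForm (extd w' y) (fun i => v i.succ) := by
      intro y
      have h4 := iprod_extd (hw.differentiable (by norm_num) y) (v 0)
      have h5 : iprod (v 0) (extd w y) = fderiv ℝ w y (v 0) - extd w' y := eq_sub_of_add_eq h4
      change aug (cont (fun i => v i.succ) (iprod (v 0) (extd w y))) = _
      rw [h5, map_sub, map_sub]
      rfl
    have h9 : Continuous fun y => fderiv ℝ w y (v 0) :=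
      (hw.continuous_fderiv (by norm_num)).clm_apply continuous_const
    have h10 : HasCompactSupport fun y => fderiv ℝ w y (v 0) :=
      (hc.fderiv ℝ).comp_left (g := fun L : F →L[ℝ] Lam F => L (v 0)) (by simp)
    have h11 : Integrable (fun y => fderiv ℝ w y (v 0)) μ :=
      h9.integrable_of_hasCompactSupport h10
    have h12 : Integrable (fun y => evalForm (extd w' y) (fun i => v i.succ)) μ := by
      have h13 : Continuous fun y => extd w' y :=
        dLin.continuous.comp (hw'.continuous_fderiv (by norm_num))
      have h14 : HasCompactSupport fun y => extd w' y :=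
        (hc'.fderiv ℝ).comp_left (g := dLin) (map_zero _)
      have h15 : Integrable (fun y => extd w' y) μ := h13.integrable_of_hasCompactSupport h14
      exact (evalL fun i => v i.succ).integrable_comp h15
    simp only [h3]
    rw [integral_sub ((evalL fun i => v i.succ).integrable_comp h11) h12, h1, sub_zero]
    have h16 := ContinuousLinearMap.integral_comp_comm (evalL fun i : Fin k => v i.succ) h11
    rw [integral_fderiv_fibre μ hw hc (v 0), map_zero] at h16
    exact h16

end Vale.Agent.P231.Fm
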