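import Vale.Agent.P231.Fm.Ext

/-!
# P231, forms layer (B): differential forms on open subsets of finite-dimensional spaces

A form is a function `w : E → Lam E`; all statements are at a point, under pointwise smoothness.
-/

set_option linter.unusedSectionVars false

open Module
open scoped ContDiff

namespace Vale.Agent.P231.Fm

variable {E : Type*} [NormedAddCommGroup E] [NormedSpace ℝ E] [FiniteDimensional ℝ E]
variable {F : Type*} [NormedAddCommGroup F] [NormedSpace ℝ F] [FiniteDimensional ℝ F]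
variable {G : Type*} [NormedAddCommGroup G] [NormedSpace ℝ G] [FiniteDimensional ℝ G]

/-- the exterior derivative -/
noncomputable def extd (w : E → Lam E) (x : E) : Lam E := dLin (fderiv ℝ w x)

theorem extd_congr {w v : E → Lam E} {x : E} (h : w =ᶠ[nhds x] v) : extd w x = extd v x := by
  unfold extd
  rw [h.fderiv_eq]

theorem extd_of {w : E → Lam E} {w' : E →L[ℝ] Lam E} {x : E} (h : HasFDerivAt w w' x) :
    extd w x = dLin w' := by
  unfold extd
  rw [h.fderiv]

@[simp] theorem extd_const (c : Lam E) (x : E) : extd (fun _ : E => c) x = 0 := by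
  simp [extd]

theorem extd_add {w v : E → Lam E} {x : E} (hw : DifferentiableAt ℝ w x)
    (hv : DifferentiableAt ℝ v x) : extd (fun y => w y + v y) x = extd w x + extd v x := by
  rw [extd_of (hw.hasFDerivAt.fun_add hv.hasFDerivAt), map_add]
  rfl

theorem extd_sub {w v : E → Lam E} {x : E} (hw : DifferentiableAt ℝ w x)
    (hv : DifferentiableAt ℝ v x) : extd (fun y => w y - v y) x = extd w x - extd v x := by
  rw [extd_of (hw.hasFDerivAt.fun_sub hv.hasFDerivAt), map_sub]
  rfl

theorem extd_neg {w : E → Lam E} {x : E} : extd (fun y => -w y) x = -extd w x := by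
  unfold extd
  rw [fderiv_fun_neg, map_neg]

theorem extd_sum {ι : Type*} (s : Finset ι) {w : ι → E → Lam E} {x : E}
    (hw : ∀ i ∈ s, DifferentiableAt ℝ (w i) x) :
    extd (fun y => ∑ i ∈ s, w i y) x = ∑ i ∈ s, extd (w i) x := by
  rw [extd_of (HasFDerivAt.fun_sum fun i hi => (hw i hi).hasFDerivAt), map_sum]
  rfl

theorem extd_mul {w v : E → Lam E} {x : E} (hw : DifferentiableAt ℝ w x)
    (hv : DifferentiableAt ℝ v x) :
    extd (fun y => w y * v y) x = extd w x * v x + inv (w x) * extd v x := by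
  have h := hw.hasFDerivAt.fun_mul' hv.hasFDerivAt
  rw [extd_of h, map_add, add_comm]
  congr 1
  · rw [extd, ← dLin_mul_right]
    congr 1
  · rw [extd, ← dLin_mul_left]
    congr 1

/-- the derivative of a function times a form -/
theorem extd_smul {f : E → ℝ} {w : E → Lam E} {x : E} (hf : DifferentiableAt ℝ f x)
    (hw : DifferentiableAt ℝ w x) :
    extd (fun y => f y • w y) x = dx (fderiv ℝ f x) * w x + f x • extd w x := by
  rw [extd_of (hf.hasFDerivAt.fun_smul hw.hasFDerivAt), map_add, add_comm, map_smul]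
  congr 1
  rw [← dLin_smulRight]

theorem extd_const_smul {w : E → Lam E} {x : E} (c : ℝ) (hw : DifferentiableAt ℝ w x) :
    extd (fun y => c • w y) x = c • extd w x := by
  rw [extd_of (hw.hasFDerivAt.fun_const_smul c), map_smul]
  rfl

/-- a function as a form of degree `0` -/
noncomputable def fn (f : E → ℝ) (x : E) : Lam E := algebraMap ℝ (Lam E) (f x)

theorem extd_fn {f : E → ℝ} {x : E} (hf : DifferentiableAt ℝ f x) :
    extd (fn f) x = dx (fderiv ℝ f x) := by
  have h : fn f = fun y => f y • (1 : Lam E) := by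
    funext y
    rw [fn, Algebra.algebraMap_eq_smul_one]
  rw [h, extd_smul hf (differentiableAt_const _), extd_const, smul_zero, add_zero, mul_one]

theorem extd_inv {w : E → Lam E} {x : E} (hw : DifferentiableAt ℝ w x) :
    extd (fun y => inv (w y)) x = -inv (extd w x) := by
  have h : HasFDerivAt (fun y => inv (w y)) (invL ∘L fderiv ℝ w x) x :=
    invL.hasFDerivAt.comp x hw.hasFDerivAt
  rw [extd_of h, extd, inv_dLin, neg_neg]

theorem contDiffAt_extd {w : E → Lam E} {x : E} {m n : WithTop ℕ∞} (hw : ContDiffAt ℝ n w x)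
    (hmn : m + 1 ≤ n) : ContDiffAt ℝ m (extd w) x :=
  ((dLin (E := E)).contDiff.contDiffAt (x := fderiv ℝ w x)).comp x (hw.fderiv_right hmn)

theorem extd_extd {w : E → Lam E} {x : E} (hw : ContDiffAt ℝ 2 w x) : extd (extd w) x = 0 := by
  have h1 : DifferentiableAt ℝ (fderiv ℝ w) x :=
    (hw.fderiv_right (m := 1) (by norm_num)).differentiableAt (by norm_num)
  have h2 : HasFDerivAt (extd w) (dLin ∘L fderiv ℝ (fderiv ℝ w) x) x :=
    (dLin (E := E)).hasFDerivAt.comp x h1.hasFDerivAt
  rw [extd_of h2]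
  refine dLin_dLin_symm _ fun u v => ?_
  exact (hw.isSymmSndFDerivAt (by simp)) u v

/-- Lie derivative along a constant vector field: Cartan's formula -/
theorem iprod_extd {w : E → Lam E} {x : E} (hw : DifferentiableAt ℝ w x) (v : E) :
    iprod v (extd w x) + extd (fun y => iprod v (w y)) x = fderiv ℝ w x v := by
  have h : HasFDerivAt (fun y => iprod v (w y)) (iprodL v ∘L fderiv ℝ w x) x :=
    (iprodL v).hasFDerivAt.comp x hw.hasFDerivAt
  rw [extd_of h, extd, iprod_dLin, sub_add_cancel]

/-! ### pullback -/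

/-- pullback of a form along a map -/
noncomputable def pb (f : E → F) (w : F → Lam F) (x : E) : Lam E :=
  pull (fderiv ℝ f x) (w (f x))

theorem pb_mul (f : E → F) (w v : F → Lam F) (x : E) :
    pb f (fun y => w y * v y) x = pb f w x * pb f v x := map_mul _ _ _

theorem pb_add (f : E → F) (w v : F → Lam F) (x : E) :
    pb f (fun y => w y + v y) x = pb f w x + pb f v x := map_add _ _ _

theorem pb_const_smul (f : E → F) (c : ℝ) (w : F → Lam F) (x : E) :
    pb f (fun y => c • w y) x = c • pb f w x := map_smul _ _ _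

theorem pb_fn (f : E → F) (g : F → ℝ) (x : E) : pb f (fn g) x = fn (g ∘ f) x :=
  AlgHom.commutes _ _

theorem pb_inv (f : E → F) (w : F → Lam F) (x : E) :
    pb f (fun y => inv (w y)) x = inv (pb f w x) := pull_inv _ _

theorem pb_id (w : E → Lam E) (x : E) : pb (fun y => y) w x = w x := by
  have : fderiv ℝ (fun y : E => y) x = ContinuousLinearMap.id ℝ E := fderiv_fun_id
  rw [pb, this, pull_id]
  rfl

theorem pb_comp {f : E → F} {g : F → G} (w : G → Lam G) {x : E} (hg : DifferentiableAt ℝ g (f x))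
    (hf : DifferentiableAt ℝ f x) : pb (fun y => g (f y)) w x = pb f (pb g w) x := by
  have : fderiv ℝ (fun y => g (f y)) x = (fderiv ℝ g (f x)).comp (fderiv ℝ f x) :=
    fderiv_fun_comp x hg hf
  rw [pb, this, pull_comp_apply]
  rfl

theorem pb_congr {f g : E → F} (w : F → Lam F) {x : E} (h : f =ᶠ[nhds x] g) :
    pb f w x = pb g w x := by
  rw [pb, pb, h.fderiv_eq, h.eq_of_nhds]

theorem contDiffAt_pb {f : E → F} {w : F → Lam F} {x : E} {m n : WithTop ℕ∞}
    (hf : ContDiffAt ℝ n f x) (hw : ContDiffAt ℝ m w (f x)) (hmn : m + 1 ≤ n) :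
    ContDiffAt ℝ m (pb f w) x := by
  have h1 : ContDiffAt ℝ m (fun y => pullL (fderiv ℝ f y)) x :=
    (contDiff_pullL (E := E) (F := F)).contDiffAt.comp x (hf.fderiv_right hmn)
  have h2 : ContDiffAt ℝ m (fun y => w (f y)) x :=
    hw.comp x (hf.of_le (le_trans le_self_add hmn))
  exact h1.clm_apply h2

/-- pullback of a constant form is closed -/
theorem extd_pull_const {f : E → F} {x : E} (hf : ContDiffAt ℝ 2 f x) (c : Lam F) :
    extd (fun y => pull (fderiv ℝ f y) c) x = 0 := by
  have h0 : ContDiffAt ℝ 1 (fderiv ℝ f) x := hf.fderiv_right (by norm_num)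
  have hd : ∀ c : Lam F, DifferentiableAt ℝ (fun y => pull (fderiv ℝ f y) c) x := fun c =>
    ((contDiff_pull (E := E) (n := 1) c).contDiffAt.comp x h0).differentiableAt (by norm_num)
  induction c using Lam.ind with
  | h1 r => simp only [AlgHom.commutes, extd_const]
  | h2 a =>
    simp only [pull_dx]
    have h1 : DifferentiableAt ℝ (fderiv ℝ f) x := h0.differentiableAt (by norm_num)
    let A : (E →L[ℝ] F) →L[ℝ] Lam E := dx ∘L ContinuousLinearMap.compL ℝ E F ℝ a
    have h2 : HasFDerivAt (fun y => dx (a.comp (fderiv ℝ f y))) (A ∘L fderiv ℝ (fderiv ℝ f) x) x :=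
      A.hasFDerivAt.comp x h1.hasFDerivAt
    rw [extd_of h2]
    -- expand in a basis: `dx (a ∘ B u) = dLin (v ↦ algebraMap (a (B u v)))`
    have hS : ∀ u v, fderiv ℝ (fderiv ℝ f) x u v = fderiv ℝ (fderiv ℝ f) x v u := fun u v =>
      (hf.isSymmSndFDerivAt (by simp)) u v
    have hA : ∀ b : E →L[ℝ] ℝ, dx b = dLin ((b : E →L[ℝ] ℝ).smulRight (1 : Lam E)) := fun b => by
      rw [dLin_smulRight, mul_one]
    let R : (E →L[ℝ] ℝ) →L[ℝ] (E →L[ℝ] Lam E) :=
      (ContinuousLinearMap.smulRightL ℝ E (Lam E)).flip (1 : Lam E)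
    let B : E →L[ℝ] E →L[ℝ] Lam E :=
      (R ∘L ContinuousLinearMap.compL ℝ E F ℝ a) ∘L fderiv ℝ (fderiv ℝ f) x
    have h3 : A ∘L fderiv ℝ (fderiv ℝ f) x = dLin ∘L B := by
      ext u
      exact hA _
    rw [h3]
    refine dLin_dLin_symm _ fun u v => ?_
    change a (fderiv ℝ (fderiv ℝ f) x u v) • (1 : Lam E) =
      a (fderiv ℝ (fderiv ℝ f) x v u) • (1 : Lam E)
    rw [hS]
  | h3 a b ha hb =>
    simp only [map_mul]
    rw [extd_mul (hd a) (hd b), ha, hb, zero_mul, mul_zero, add_zero]
  | h4 a b ha hb =>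
    simp only [map_add]
    rw [extd_add (hd a) (hd b), ha, hb, add_zero]

/-- the exterior derivative commutes with pullback -/
theorem extd_pb {f : E → F} {w : F → Lam F} {x : E} (hf : ContDiffAt ℝ 2 f x)
    (hw : DifferentiableAt ℝ w (f x)) : extd (pb f w) x = pb f (extd w) x := by
  have h0 : ContDiffAt ℝ 1 (fderiv ℝ f) x := hf.fderiv_right (by norm_num)
  have h1 : DifferentiableAt ℝ (fun y => pullL (fderiv ℝ f y)) x :=
    ((contDiff_pullL (E := E) (F := F) (n := 1)).contDiffAt.comp x h0).differentiableAt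
      (by norm_num)
  have hfd : HasFDerivAt f (fderiv ℝ f x) x := (hf.differentiableAt (by norm_num)).hasFDerivAt
  have h2 : HasFDerivAt (fun y => w (f y)) (fderiv ℝ w (f x) ∘L fderiv ℝ f x) x :=
    hw.hasFDerivAt.comp x hfd
  have h3 := h1.hasFDerivAt.clm_apply h2
  have h4 : extd (pb f w) x = _ := extd_of (w := pb f w) h3
  rw [h4, map_add]
  have h5 : extd (fun y => pull (fderiv ℝ f y) (w (f x))) x = 0 := extd_pull_const hf _
  have h6 : HasFDerivAt (fun y => pull (fderiv ℝ f y) (w (f x)))
      ((fderiv ℝ (fun y => pullL (fderiv ℝ f y)) x).flip (w (f x))) x := by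
    have := h1.hasFDerivAt.clm_apply (hasFDerivAt_const (w (f x)) x)
    simpa using this
  rw [extd_of h6] at h5
  rw [h5, add_zero, pb, extd, pull_dLin]
  rfl

end Vale.Agent.P231.Fm
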